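import Vale.Agent.P167.Fjord.Right

/-!
# P167, block CG4 (LAB), part 3: coordinates of the pieces

`dz y` is the distance of `y` to the nearest integer, `Dia c` the open diamond of the edge `ahead c`.
The pieces of the left paths are in `LP`, those of the right paths in `RP`; these are disjoint.
-/

set_option linter.unusedSimpArgs false
set_option linter.unusedVariables false
set_option linter.unnecessarySeqFocus false
set_option linter.unusedTactic false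

open Set Metric

namespace Vale.Agent.P167.H72

open Vale.Agent.P167.E6 Vale.Agent.P167.E2 Vale.Agent.P167.Fjord

/-- Distance to the nearest integer. -/
noncomputable def dz (y : ℝ) : ℝ := |y - round y|

theorem dz_eq {y : ℝ} (m : ℤ) (h : |y - m| ≤ 1 / 2) : dz y = |y - m| := by
  refine le_antisymm (round_le y m) ?_
  by_cases hm : round y = m
  · rw [dz, hm]
  · have h1 : (1 : ℝ) ≤ |(m : ℝ) - round y| := by
      have : 1 ≤ |m - round y| := Int.one_le_abs (sub_ne_zero.2 (Ne.symm hm))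
      exact_mod_cast this
    have h2 : |(m : ℝ) - round y| ≤ |y - m| + |y - round y| := by
      calc |(m : ℝ) - round y| = |-(y - m) + (y - round y)| := by ring_nf
        _ ≤ |-(y - m)| + |y - round y| := abs_add_le _ _
        _ = _ := by rw [abs_neg]
    unfold dz
    linarith

theorem dz_add {m : ℤ} {t : ℝ} (h0 : 0 ≤ t) (h1 : t ≤ 1 / 2) : dz (m + t) = t := by
  rw [dz_eq m (by rw [add_sub_cancel_left, abs_of_nonneg h0]; exact h1), add_sub_cancel_left,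
    abs_of_nonneg h0]

theorem dz_sub {m : ℤ} {t : ℝ} (h0 : 0 ≤ t) (h1 : t ≤ 1 / 2) : dz (m - t) = t := by
  have : (m : ℝ) - t - m = -t := by ring
  rw [dz_eq m (by rw [this, abs_neg, abs_of_nonneg h0]; exact h1), this, abs_neg,
    abs_of_nonneg h0]

/-- The open diamond of the edge ahead. -/
def Dia (c : Medial) (z : ℂ) : Prop := |z.re - (em c).re| + |z.im - (em c).im| < 1 / 2

theorem dia_unique {c d : Medial} {z : ℂ} (h : Dia c z) (h' : Dia d z) : ahead c = ahead d := by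
  unfold Dia at h h'
  have key : c.1.1 + (adv c).1.1 = d.1.1 + (adv d).1.1 ∧
      c.1.2 + (adv c).1.2 = d.1.2 + (adv d).1.2 := by
    set A := c.1.1 + (adv c).1.1 with hA
    set B := c.1.2 + (adv c).1.2 with hB
    set A' := d.1.1 + (adv d).1.1 with hA'
    set B' := d.1.2 + (adv d).1.2 with hB'
    have e1 : (em c).re = (A : ℝ) / 2 := by rw [hA]; simp [Fjord.em]
    have e2 : (em c).im = (B : ℝ) / 2 := by rw [hB]; simp [Fjord.em]
    have e3 : (em d).re = (A' : ℝ) / 2 := by rw [hA']; simp [Fjord.em]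
    have e4 : (em d).im = (B' : ℝ) / 2 := by rw [hB']; simp [Fjord.em]
    have p1 : (A + B) % 2 = 1 := by
      rw [hA, hB]
      clear_value A B A' B'
      obtain ⟨v, r⟩ := c
      clear hA hB e1 e2 h h'
      revert r
      refine forall4 ?_ ?_ ?_ ?_ <;> simp only [adv_0, adv_1, adv_2, adv_3] <;> omega
    have p2 : (A' + B') % 2 = 1 := by
      rw [hA', hB']
      clear_value A B A' B'
      obtain ⟨v, r⟩ := d
      clear hA' hB' e3 e4 h h'
      revert r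
      refine forall4 ?_ ?_ ?_ ?_ <;> simp only [adv_0, adv_1, adv_2, adv_3] <;> omega
    rw [e1, e2] at h
    rw [e3, e4] at h'
    have h1 : |(A : ℝ) - A'| + |(B : ℝ) - B'| < 2 := by
      have t1 : |(A : ℝ) / 2 - A' / 2| ≤ |z.re - A / 2| + |z.re - A' / 2| := by
        calc |(A : ℝ) / 2 - A' / 2| = |-(z.re - A / 2) + (z.re - A' / 2)| := by ring_nf
          _ ≤ |-(z.re - A / 2)| + |z.re - A' / 2| := abs_add_le _ _
          _ = _ := by rw [abs_neg]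
      have t2 : |(B : ℝ) / 2 - B' / 2| ≤ |z.im - B / 2| + |z.im - B' / 2| := by
        calc |(B : ℝ) / 2 - B' / 2| = |-(z.im - B / 2) + (z.im - B' / 2)| := by ring_nf
          _ ≤ |-(z.im - B / 2)| + |z.im - B' / 2| := abs_add_le _ _
          _ = _ := by rw [abs_neg]
      have t3 : |(A : ℝ) / 2 - A' / 2| = |(A : ℝ) - A'| / 2 := by
        rw [← sub_div, abs_div, abs_of_pos (two_pos (α := ℝ))]
      have t4 : |(B : ℝ) / 2 - B' / 2| = |(B : ℝ) - B'| / 2 := by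
        rw [← sub_div, abs_div, abs_of_pos (two_pos (α := ℝ))]
      linarith
    have h2 : |A - A'| + |B - B'| < 2 := by exact_mod_cast h1
    clear_value A B A' B'
    clear h h' h1 e1 e2 e3 e4
    rcases abs_cases (A - A') with ⟨h3, h3'⟩ | ⟨h3, h3'⟩ <;>
      rcases abs_cases (B - B') with ⟨h4, h4'⟩ | ⟨h4, h4'⟩ <;> rw [h3, h4] at h2 <;>
      constructor <;> omega
  clear h h'
  obtain ⟨v, r⟩ := c
  obtain ⟨w, s⟩ := d
  rw [ahead_eq, ahead_eq, Sym2.eq_iff]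
  revert r s
  refine forall4 ?_ ?_ ?_ ?_ <;> refine forall4 ?_ ?_ ?_ ?_ <;>
    simp only [adv_0, adv_1, adv_2, adv_3, Prod.ext_iff] <;> omega

theorem dz_pm {y t : ℝ} (m : ℤ) (h : y = m + t ∨ y = m - t) (h0 : 0 ≤ t) (h1 : t ≤ 1 / 2) :
    dz y = t := by
  rcases h with rfl | rfl
  · exact dz_add h0 h1
  · exact dz_sub h0 h1

theorem dz_abs {y t : ℝ} (m : ℤ) (h : y = m + t ∨ y = m - t) (h1 : |t| ≤ 1 / 2) : dz y = |t| := by
  rcases h with rfl | rfl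
  · rw [dz_eq m (by rwa [add_sub_cancel_left]), add_sub_cancel_left]
  · have : (m : ℝ) - t - m = -t := by ring
    rw [dz_eq m (by rwa [this, abs_neg]), this, abs_neg]

theorem dz_half {y u : ℝ} (m : ℤ) (h : y = m + 1 / 2 + u ∨ y = m + 1 / 2 - u) (h1 : |u| ≤ 1 / 2) :
    dz y = 1 / 2 - |u| := by
  have key : ∀ w : ℝ, |w| ≤ 1 / 2 → dz (m + 1 / 2 + w) = 1 / 2 - |w| := by
    intro w hw
    rcases le_total 0 w with h0 | h0
    · rw [abs_of_nonneg h0] at hw ⊢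
      exact dz_pm (m + 1) (Or.inr (by push_cast; ring)) (by linarith) (by linarith)
    · rw [abs_of_nonpos h0] at hw ⊢
      exact dz_pm m (Or.inl (by ring)) (by linarith) (by linarith)
  rcases h with rfl | rfl
  · exact key u h1
  · rw [sub_eq_add_neg, key (-u) (by rwa [abs_neg]), abs_neg]

/-- Local coordinates at the edge ahead: `u` in the direction of the edge, `t` to the right. -/
noncomputable def qp (c : Medial) (u t : ℝ) : ℂ :=
  ⟨(Fjord.em c).re + u * (dir (c.2 + 1)).1 + t * (dir c.2).1,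
    (Fjord.em c).im + u * (dir (c.2 + 1)).2 + t * (dir c.2).2⟩

theorem qp_dz {c : Medial} {u t : ℝ} (hu : |u| ≤ 1 / 2) (ht : |t| ≤ 1 / 2) :
    (dz (qp c u t).re = 1 / 2 - |u| ∧ dz (qp c u t).im = |t|) ∨
      (dz (qp c u t).im = 1 / 2 - |u| ∧ dz (qp c u t).re = |t|) := by
  obtain ⟨v, r⟩ := c
  revert r
  refine forall4 ?_ ?_ ?_ ?_ <;>
    simp only [qp, Fjord.em, adv_0, adv_1, adv_2, adv_3, dir0, dir1, dir2, dir3, f4_01, f4_11, f4_21,
      f4_31, Int.cast_one, Int.cast_zero, Int.cast_neg, mul_one, mul_zero, mul_neg, add_zero,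
      Int.cast_add, Int.cast_sub]
  · right
    exact ⟨dz_half v.2 (Or.inl (by ring)) hu, dz_abs v.1 (Or.inl (by ring)) ht⟩
  · left
    exact ⟨dz_half (v.1 - 1) (Or.inr (by push_cast; ring)) hu, dz_abs v.2 (Or.inl (by ring)) ht⟩
  · right
    exact ⟨dz_half (v.2 - 1) (Or.inr (by push_cast; ring)) hu, dz_abs v.1 (Or.inr (by ring)) ht⟩
  · left
    exact ⟨dz_half v.1 (Or.inl (by ring)) hu, dz_abs v.2 (Or.inr (by ring)) ht⟩

theorem qp_dia {c : Medial} {u t : ℝ} (h : |u| + |t| < 1 / 2) : Dia c (qp c u t) := by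
  unfold Dia
  obtain ⟨v, r⟩ := c
  revert r
  refine forall4 ?_ ?_ ?_ ?_ <;>
    simp only [qp, dir0, dir1, dir2, dir3, f4_01, f4_11, f4_21, f4_31, Int.cast_one, Int.cast_zero,
      Int.cast_neg, mul_one, mul_zero, mul_neg, add_zero, add_sub_cancel_left, abs_neg] <;> linarith

theorem pt_qp (c : Medial) : pt c.1 = qp c (-(1 / 2)) 0 := by
  obtain ⟨v, r⟩ := c
  revert r
  refine forall4 ?_ ?_ ?_ ?_ <;> apply Complex.ext <;>
    simp only [qp, pt, Fjord.em, adv_0, adv_1, adv_2, adv_3, dir0, dir1, dir2, dir3, f4_01, f4_11,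
      f4_21, f4_31, Int.cast_one, Int.cast_zero, Int.cast_neg, Int.cast_add, Int.cast_sub] <;> ring

theorem pt_adv_qp (c : Medial) : pt (adv c).1 = qp c (1 / 2) 0 := by
  obtain ⟨v, r⟩ := c
  revert r
  refine forall4 ?_ ?_ ?_ ?_ <;> apply Complex.ext <;>
    simp only [qp, pt, Fjord.em, adv_0, adv_1, adv_2, adv_3, dir0, dir1, dir2, dir3, f4_01, f4_11,
      f4_21, f4_31, Int.cast_one, Int.cast_zero, Int.cast_neg, Int.cast_add, Int.cast_sub] <;> ring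

theorem em_qp (c : Medial) : Fjord.em c = qp c 0 0 := by
  apply Complex.ext <;> simp [qp]

theorem qo_qp (c : Medial) : qo c = qp c 0 (5 / 16) := by
  apply Complex.ext <;> simp [qp, qo]

theorem ctr_qp (c : Medial) : ctr (fc c) = qp c 0 (1 / 2) := by
  obtain ⟨v, r⟩ := c
  revert r
  refine forall4 ?_ ?_ ?_ ?_ <;> apply Complex.ext <;>
    simp only [qp, Fjord.em, ctr, adv_0, adv_1, adv_2, adv_3, fc_0, fc_1, fc_2, fc_3, dir0, dir1,
      dir2, dir3, f4_01, f4_11, f4_21, f4_31, Int.cast_one, Int.cast_zero, Int.cast_neg,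
      Int.cast_add, Int.cast_sub] <;> ring

theorem cpt_qp (c : Medial) (θ : ℝ) : cpt θ c = qp c (θ - 1 / 2) θ := by
  obtain ⟨v, r⟩ := c
  revert r
  refine forall4 ?_ ?_ ?_ ?_ <;> apply Complex.ext <;>
    simp only [qp, Fjord.em, adv_0, adv_1, adv_2, adv_3, cpt_0, cpt_1, cpt_2, cpt_3, dir0, dir1,
      dir2, dir3, f4_01, f4_11, f4_21, f4_31, Int.cast_one, Int.cast_zero, Int.cast_neg,
      Int.cast_add, Int.cast_sub] <;> ring

theorem cpt_adv_qp (c : Medial) (θ : ℝ) : cpt θ (adv c) = qp c (1 / 2 - θ) θ := by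
  obtain ⟨v, r⟩ := c
  revert r
  refine forall4 ?_ ?_ ?_ ?_ <;> apply Complex.ext <;>
    simp only [qp, Fjord.em, adv_0, adv_1, adv_2, adv_3, cpt_0, cpt_1, cpt_2, cpt_3, dir0, dir1,
      dir2, dir3, f4_01, f4_11, f4_21, f4_31, Int.cast_one, Int.cast_zero, Int.cast_neg,
      Int.cast_add, Int.cast_sub] <;> ring

theorem cpt_rot_qp (c : Medial) (θ : ℝ) : cpt θ (rot c) = qp c (θ - 1 / 2) (-θ) := by
  obtain ⟨v, r⟩ := c
  revert r
  refine forall4 ?_ ?_ ?_ ?_ <;> apply Complex.ext <;>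
    simp only [qp, Fjord.em, rot_0, rot_1, rot_2, rot_3, adv_0, adv_1, adv_2, adv_3, cpt_0, cpt_1,
      cpt_2, cpt_3, dir0, dir1,
      dir2, dir3, f4_01, f4_11, f4_21, f4_31, Int.cast_one, Int.cast_zero, Int.cast_neg,
      Int.cast_add, Int.cast_sub] <;> ring

/-- Points of a segment in local coordinates. -/
theorem seg_qp {c : Medial} {u₀ t₀ u₁ t₁ : ℝ} {z : ℂ}
    (h : z ∈ segment ℝ (qp c u₀ t₀) (qp c u₁ t₁)) : ∃ s : ℝ, 0 ≤ s ∧ s ≤ 1 ∧
      z = qp c (u₀ + s * (u₁ - u₀)) (t₀ + s * (t₁ - t₀)) := by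
  obtain ⟨s, h0, h1, e1, e2⟩ := seg_coord h
  refine ⟨s, h0, h1, ?_⟩
  apply Complex.ext
  · rw [e1]; simp only [qp]; ring
  · rw [e2]; simp only [qp]; ring

/-- The pieces of the left paths. -/
def LP (ω wd : Set (Sym2 (ℤ × ℤ))) (z : ℂ) : Prop :=
  (∃ c : Medial, ahead c ∈ ω ∧ z ∈ segment ℝ (pt c.1) (Fjord.em c)) ∨
  (∃ (c : Medial) (θ : ℝ), 0 ≤ θ ∧ θ < 1 / 4 ∧ z = cpt θ c) ∨
  ∃ (c : Medial) (t : ℝ), ahead c ∈ wd ∧ 0 ≤ t ∧ t < 3 / 8 ∧ z = qp c 0 t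

/-- The pieces of the right paths. -/
def RP (ω wd : Set (Sym2 (ℤ × ℤ))) (z : ℂ) : Prop :=
  (∃ c : Medial, ahead c ∉ ω ∧ z ∈ segment ℝ (Fjord.em c) (ctr (fc c))) ∨
  (∃ (c : Medial) (θ : ℝ), 1 / 4 < θ ∧ θ ≤ 1 / 2 ∧ z = cpt θ c) ∨
  (∃ c : Medial, ahead c ∉ ω ∧ z ∈ segment ℝ (cpt (5 / 16) c) (cpt (5 / 16) (rot c))) ∨
  (∃ c : Medial, ahead c ∉ wd ∧ z ∈ segment ℝ (cpt (5 / 16) c) (cpt (5 / 16) (adv c))) ∨
  ∃ (c : Medial) (t : ℝ), ahead c ∉ wd ∧ 5 / 16 ≤ t ∧ t < 3 / 8 ∧ z = qp c 0 t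

/-- Coordinates of the left pieces. -/
theorem lp_coord {ω wd : Set (Sym2 (ℤ × ℤ))} {z : ℂ} (h : LP ω wd z) :
    (((dz z.re = 0 ∨ dz z.im = 0) ∧ ((∃ c : Medial, ahead c ∈ ω ∧ Dia c z) ∨
      (dz z.re = 0 ∧ dz z.im = 0))) ∨ (dz z.re < 1 / 4 ∧ dz z.im < 1 / 4)) ∨
    (((dz z.re = 1 / 2 ∧ dz z.im < 3 / 8) ∨ (dz z.im = 1 / 2 ∧ dz z.re < 3 / 8)) ∧
      ∃ c : Medial, ahead c ∈ wd ∧ Dia c z) := by
  rcases h with ⟨c, hc, h⟩ | ⟨c, θ, h0, h1, rfl⟩ | ⟨c, t, hc, h0, h1, rfl⟩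
  · refine Or.inl (Or.inl ?_)
    rw [pt_qp, em_qp] at h
    obtain ⟨s, h0, h1, rfl⟩ := seg_qp h
    have e1 : |-(1 / 2) + s * (0 - -(1 / 2))| = (1 - s) / 2 := by
      rw [abs_of_nonpos (by linarith)]
      ring
    have e2 : |0 + s * (0 - (0 : ℝ))| = 0 := by simp
    have h2 := qp_dz (c := c) (u := -(1 / 2) + s * (0 - -(1 / 2))) (t := 0 + s * (0 - 0))
      (by rw [e1]; linarith) (by rw [e2]; norm_num)
    rw [e1, e2] at h2
    refine ⟨by rcases h2 with h2 | h2 <;> [exact Or.inr h2.2; exact Or.inl h2.2], ?_⟩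
    rcases h0.eq_or_lt with h0 | h0
    · right
      rw [← h0] at h2 ⊢
      rcases h2 with ⟨h3, h4⟩ | ⟨h3, h4⟩
      · exact ⟨by rw [h3]; ring, h4⟩
      · exact ⟨h4, by rw [h3]; ring⟩
    · left
      exact ⟨c, hc, qp_dia (by rw [e1, e2]; linarith)⟩
  · refine Or.inl (Or.inr ?_)
    rw [cpt_qp]
    have e1 : |θ - 1 / 2| = 1 / 2 - θ := by rw [abs_of_nonpos (by linarith)]; ring
    have e2 : |θ| = θ := abs_of_nonneg h0
    have h2 := qp_dz (c := c) (u := θ - 1 / 2) (t := θ) (by rw [e1]; linarith)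
      (by rw [e2]; linarith)
    rw [e1, e2] at h2
    rcases h2 with ⟨h3, h4⟩ | ⟨h3, h4⟩
    · exact ⟨by rw [h3]; linarith, by rw [h4]; exact h1⟩
    · exact ⟨by rw [h4]; exact h1, by rw [h3]; linarith⟩
  · right
    have e1 : |(0 : ℝ)| = 0 := abs_zero
    have e2 : |t| = t := abs_of_nonneg h0
    have h2 := qp_dz (c := c) (u := 0) (t := t) (by rw [e1]; norm_num) (by rw [e2]; linarith)
    rw [e1, e2, sub_zero] at h2
    refine ⟨?_, c, hc, qp_dia (by rw [e1, e2]; linarith)⟩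
    rcases h2 with ⟨h3, h4⟩ | ⟨h3, h4⟩
    · exact Or.inl ⟨h3, by rw [h4]; exact h1⟩
    · exact Or.inr ⟨h3, by rw [h4]; exact h1⟩

/-- Coordinates of the right pieces. -/
theorem rp_coord {ω wd : Set (Sym2 (ℤ × ℤ))} (hwd : wd ⊆ ω) {z : ℂ} (h : RP ω wd z) :
    ((dz z.re = 1 / 2 ∨ dz z.im = 1 / 2) ∧ ((∃ c : Medial, ahead c ∉ ω ∧ Dia c z) ∨
      (dz z.re = 1 / 2 ∧ dz z.im = 1 / 2))) ∨
    (1 / 4 < dz z.re ∧ 1 / 4 < dz z.im ∧ (((dz z.re = 1 / 2 ∨ dz z.im = 1 / 2) →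
      (dz z.re = 1 / 2 ∧ dz z.im = 1 / 2) ∨ ∃ c : Medial, ahead c ∉ wd ∧ Dia c z))) ∨
    ((dz z.re = 5 / 16 ∨ dz z.im = 5 / 16) ∧ dz z.re ≤ 5 / 16 ∧ dz z.im ≤ 5 / 16 ∧
      ((dz z.re = 0 ∨ dz z.im = 0) → ∃ c : Medial, ahead c ∉ ω ∧ Dia c z)) := by
  rcases h with ⟨c, hc, h⟩ | ⟨c, θ, h0, h1, rfl⟩ | ⟨c, hc, h⟩ | ⟨c, hc, h⟩ | ⟨c, t, hc, h0, h1, rfl⟩
  · left
    rw [ctr_qp, em_qp] at h
    obtain ⟨s, h0, h1, rfl⟩ := seg_qp h
    have e1 : |0 + s * (0 - (0 : ℝ))| = 0 := by simp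
    have e2 : |0 + s * (1 / 2 - 0)| = s / 2 := by
      rw [abs_of_nonneg (by linarith)]
      ring
    have h2 := qp_dz (c := c) (u := 0 + s * (0 - 0)) (t := 0 + s * (1 / 2 - 0))
      (by rw [e1]; norm_num) (by rw [e2]; linarith)
    have h5 : s < 1 → Dia c (qp c (0 + s * (0 - 0)) (0 + s * (1 / 2 - 0))) := fun h1 =>
      qp_dia (by rw [e1, e2]; linarith)
    rw [e1, e2] at h2
    generalize qp c (0 + s * (0 - 0)) (0 + s * (1 / 2 - 0)) = z at *
    rw [sub_zero] at h2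
    refine ⟨by rcases h2 with h2 | h2 <;> [exact Or.inl h2.1; exact Or.inr h2.1], ?_⟩
    rcases h1.eq_or_lt with h1 | h1
    · right
      rw [h1] at h2
      rcases h2 with ⟨h3, h4⟩ | ⟨h3, h4⟩
      · exact ⟨h3, h4⟩
      · exact ⟨h4, h3⟩
    · left
      exact ⟨c, hc, h5 h1⟩
  · right
    left
    rw [cpt_qp]
    have e1 : |θ - 1 / 2| = 1 / 2 - θ := by rw [abs_of_nonpos (by linarith)]; ring
    have e2 : |θ| = θ := abs_of_nonneg (by linarith)
    have h2 := qp_dz (c := c) (u := θ - 1 / 2) (t := θ) (by rw [e1]; linarith)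
      (by rw [e2]; linarith)
    have e3 : 1 / 2 - (1 / 2 - θ) = θ := by ring
    rw [e1, e2, e3] at h2
    have h3 : dz (qp c (θ - 1 / 2) θ).re = θ ∧ dz (qp c (θ - 1 / 2) θ).im = θ := by
      rcases h2 with h2 | h2
      · exact h2
      · exact ⟨h2.2, h2.1⟩
    rw [h3.1, h3.2]
    exact ⟨h0, h0, fun h => Or.inl (by rcases h with h | h <;> exact ⟨h, h⟩)⟩
  · right
    right
    rw [cpt_qp, cpt_rot_qp] at h
    obtain ⟨s, h0, h1, rfl⟩ := seg_qp h
    have e1 : |5 / 16 - 1 / 2 + s * (5 / 16 - 1 / 2 - (5 / 16 - 1 / 2) : ℝ)| = 3 / 16 := by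
      rw [sub_self, mul_zero, add_zero, abs_of_nonpos (by norm_num)]
      norm_num
    have e2 : |5 / 16 + s * (-(5 / 16) - 5 / 16)| ≤ 5 / 16 := by
      rw [abs_le]
      constructor <;> linarith
    have h2 := qp_dz (c := c) (u := 5 / 16 - 1 / 2 + s * (5 / 16 - 1 / 2 - (5 / 16 - 1 / 2)))
      (t := 5 / 16 + s * (-(5 / 16) - 5 / 16)) (by rw [e1]; norm_num) (by linarith)
    have e4 : ∀ t : ℝ, |t| = 0 → ahead c ∉ ω → ∃ c' : Medial, ahead c' ∉ ω ∧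
        Dia c' (qp c (5 / 16 - 1 / 2 + s * (5 / 16 - 1 / 2 - (5 / 16 - 1 / 2))) t) := by
      intro t ht hc
      exact ⟨c, hc, qp_dia (by rw [e1, ht]; norm_num)⟩
    generalize (5 / 16 + s * (-(5 / 16) - 5 / 16) : ℝ) = t at *
    rw [e1] at h2
    rcases h2 with ⟨h3, h4⟩ | ⟨h3, h4⟩
    · rw [h3, h4]
      refine ⟨Or.inl (by norm_num), by norm_num, e2, ?_⟩
      rintro (h | h)
      · norm_num at h
      · exact e4 t h hc
    · rw [h3, h4]
      refine ⟨Or.inr (by norm_num), e2, by norm_num, ?_⟩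
      rintro (h | h)
      · exact e4 t h hc
      · norm_num at h
  · right
    left
    rw [cpt_qp, cpt_adv_qp] at h
    obtain ⟨s, h0, h1, rfl⟩ := seg_qp h
    have e1 : |5 / 16 - 1 / 2 + s * (1 / 2 - 5 / 16 - (5 / 16 - 1 / 2))| ≤ 3 / 16 := by
      rw [abs_le]
      constructor <;> linarith
    have e2 : |5 / 16 + s * (5 / 16 - 5 / 16 : ℝ)| = 5 / 16 := by
      rw [sub_self, mul_zero, add_zero, abs_of_nonneg (by norm_num)]
    have h2 := qp_dz (c := c) (u := 5 / 16 - 1 / 2 + s * (1 / 2 - 5 / 16 - (5 / 16 - 1 / 2)))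
      (t := 5 / 16 + s * (5 / 16 - 5 / 16)) (by linarith) (by rw [e2]; norm_num)
    have e4 : ∀ u : ℝ, |u| = 0 → ∃ c' : Medial, ahead c' ∉ wd ∧
        Dia c' (qp c u (5 / 16 + s * (5 / 16 - 5 / 16))) := by
      intro u hu
      exact ⟨c, hc, qp_dia (by rw [e2, hu]; norm_num)⟩
    generalize (5 / 16 - 1 / 2 + s * (1 / 2 - 5 / 16 - (5 / 16 - 1 / 2)) : ℝ) = u at *
    rw [e2] at h2
    have e5 := abs_nonneg u
    rcases h2 with ⟨h3, h4⟩ | ⟨h3, h4⟩
    · rw [h3, h4]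
      refine ⟨by linarith, by norm_num, ?_⟩
      rintro (h | h)
      · exact Or.inr (e4 u (by linarith))
      · norm_num at h
    · rw [h3, h4]
      refine ⟨by norm_num, by linarith, ?_⟩
      rintro (h | h)
      · norm_num at h
      · exact Or.inr (e4 u (by linarith))
  · right
    left
    have e1 : |(0 : ℝ)| = 0 := abs_zero
    have e2 : |t| = t := abs_of_nonneg (by linarith)
    have h2 := qp_dz (c := c) (u := 0) (t := t) (by rw [e1]; norm_num) (by rw [e2]; linarith)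
    have h3 : Dia c (qp c 0 t) := qp_dia (by rw [e1, e2]; linarith)
    rw [e1, e2, sub_zero] at h2
    rcases h2 with ⟨h4, h5⟩ | ⟨h4, h5⟩
    · rw [h4, h5]
      exact ⟨by norm_num, by linarith, fun _ => Or.inr ⟨c, hc, h3⟩⟩
    · rw [h4, h5]
      exact ⟨by linarith, by norm_num, fun _ => Or.inr ⟨c, hc, h3⟩⟩

/-- **The left and the right pieces are disjoint.** -/
theorem LP_RP {ω wd : Set (Sym2 (ℤ × ℤ))} (hwd : wd ⊆ ω) {z : ℂ} (h : LP ω wd z)
    (h' : RP ω wd z) : False := by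
  have hu : ∀ c d : Medial, ahead c ∈ ω → ahead d ∉ ω → Dia c z → Dia d z → False := by
    intro c d h1 h2 h3 h4
    rw [dia_unique h3 h4] at h1
    exact h2 h1
  have hw : ∀ c d : Medial, ahead c ∈ wd → ahead d ∉ wd → Dia c z → Dia d z → False := by
    intro c d h1 h2 h3 h4
    rw [dia_unique h3 h4] at h1
    exact h2 h1
  rcases lp_coord h with (⟨h1, h2⟩ | ⟨h1, h2⟩) | ⟨h1, c, hc, h2⟩
  · rcases rp_coord hwd h' with ⟨r1, r2⟩ | ⟨r1, r2, r3⟩ | ⟨r1, r2, r3, r4⟩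
    · rcases h2 with ⟨c, hc, h2⟩ | ⟨h2, h3⟩
      · rcases r2 with ⟨d, hd, r2⟩ | ⟨r2, r3⟩
        · exact hu c d hc hd h2 r2
        · rcases h1 with h1 | h1 <;> linarith
      · rcases r1 with r1 | r1 <;> linarith
    · rcases h1 with h1 | h1 <;> linarith
    · rcases h2 with ⟨c, hc, h2⟩ | ⟨h2, h3⟩
      · obtain ⟨d, hd, r5⟩ := r4 h1
        exact hu c d hc hd h2 r5
      · rcases r1 with r1 | r1 <;> linarith
  · rcases rp_coord hwd h' with ⟨r1, r2⟩ | ⟨r1, r2, r3⟩ | ⟨r1, r2, r3, r4⟩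
    · rcases r1 with r1 | r1 <;> linarith
    · linarith
    · rcases r1 with r1 | r1 <;> linarith
  · rcases rp_coord hwd h' with ⟨r1, r2⟩ | ⟨r1, r2, r3⟩ | ⟨r1, r2, r3, r4⟩
    · rcases r2 with ⟨d, hd, r2⟩ | ⟨r2, r3⟩
      · exact hu c d (hwd hc) hd h2 r2
      · rcases h1 with ⟨h3, h4⟩ | ⟨h3, h4⟩ <;> linarith
    · rcases h1 with ⟨h3, h4⟩ | ⟨h3, h4⟩
      · rcases r3 (Or.inl h3) with ⟨r5, r6⟩ | ⟨d, hd, r5⟩
        · linarith
        · exact hw c d hc hd h2 r5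
      · rcases r3 (Or.inr h3) with ⟨r5, r6⟩ | ⟨d, hd, r5⟩
        · linarith
        · exact hw c d hc hd h2 r5
    · rcases h1 with ⟨h3, h4⟩ | ⟨h3, h4⟩ <;> linarith

end Vale.Agent.P167.H72
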