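import Vale.Agent.P167.H72.Lab
import Vale.Agent.P167.H531.PosDefs
import Vale.Agent.P167.H756.Exn

/-!
# P167, block CG4 (LAB), part 8: the labels (L1), (L2) in the coordinate of the tip

`lab_of`: for small mesh, uniformly in the domain, the outcome and the step.
-/

set_option linter.unusedSimpArgs false
set_option linter.unusedVariables false

open Set Metric Filter Topology

namespace Vale.Agent.P167.H72

open Vale.Agent.P167.E6 Vale.Agent.P167.E2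
open Vale.Agent.P167.H411 (Qc Qc_wf mem_Qc DC)
open Vale.Agent.P153.R2.R1 (IsU mb mb_continuousOn)
open Vale.Agent.P153.R2.L1 (HH)
open Vale.Agent.P153.R2.L2 (Crv gg ww cc drv)
open Vale.Agent.P153.R2.L2.Crv (drvT drvT_eq drv_cc)
open Vale.Agent.P167.H634 (RO LO)
open Vale.Agent.P167.H756 (HConf Drv small_dom)
open Vale.Agent.P164 (loewnerDomain Zf gf gf_eq Zf_eq Zf_congr IsLoewnerSol)

/-- The coordinate of the tip. -/
theorem zf_gg {γ : ℝ → ℂ} {T : ℝ} (hC : Crv γ T) {t t₁ : ℝ} (h0 : 0 ≤ t) (h1 : t ≤ t₁) (h2 : t₁ < T)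
    {w : ℂ} (hw : w ∈ HH \ γ '' Icc 0 t) :
    Zf (drvT γ T t₁) w (cc γ t) = gg γ t w - ww γ t := by
  have ht : t ∈ Ico 0 T := ⟨h0, h1.trans_lt h2⟩
  have ht₁ : t₁ ∈ Ico 0 T := ⟨h0.trans h1, h2⟩
  have h3 : cc γ t ≤ cc γ t₁ := hC.strictMono.monotoneOn ht ht₁ h1
  rw [Zf_congr (W' := drv γ T) (hC.cap_nonneg ht) fun s hs => drvT_eq hs.1 (hs.2.trans h3), Zf_eq,
    gf_eq (hC.sol ht hw) ⟨hC.cap_nonneg ht, le_rfl⟩, hC.tau_cc ht, hC.drv_cc ht]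

/-- **The labels.** -/
theorem lab_nr {T R Rd cd Y ε : ℝ} (hRd : 0 < Rd) (hcd : 0 < cd) (hY0 : 0 < Y) (hY : 8 * R ≤ Y)
    (hY2 : 64 * T ≤ Y ^ 2) (hε : 0 < ε) :
    ∃ d0 > 0, ∀ {n : ℕ} {p : ZMod n → ℤ × ℤ} {S : Finset (ℤ × ℤ)} {k : ℕ}
      {A : Finset (Sym2 (ℤ × ℤ))} {δ : ℝ} {ψ : ℂ → ℂ} {τ : ℕ}, 0 < δ → δ ≤ d0 → IsPolygon p →
      Encloses p S → 0 < k → k + 1 < n → A ⊆ edges S → τ ≤ len p k A →
      IsU ψ (Om δ S) (aM p δ) (bM p k δ) → HConf Rd cd Y ψ →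
      Drv T R (((Qc p k δ S).expl ψ).W A) (((Qc p k δ S).expl ψ).c A (τ + 1)) →
      ∀ w ∈ loewnerDomain (((Qc p k δ S).expl ψ).W A) (((Qc p k δ S).expl ψ).c A (τ + 1)),
      (ψ w ∈ RO p k S A δ τ → ∃ x ∈ Ici (0 : ℝ), dist (mb 1 Complex.I
        (Zf (((Qc p k δ S).expl ψ).W A) w (((Qc p k δ S).expl ψ).c A (τ + 1))))
        (mb 1 Complex.I (x : ℂ)) ≤ ε) ∧
      (ψ w ∈ LO p k A δ τ → ∃ x ∈ Iic (0 : ℝ), dist (mb 1 Complex.I
        (Zf (((Qc p k δ S).expl ψ).W A) w (((Qc p k δ S).expl ψ).c A (τ + 1))))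
        (mb 1 Complex.I (x : ℂ)) ≤ ε) := by
  obtain ⟨η, hη, hsm⟩ := small_dom (T := T) (R := R) hRd hcd hY0 hY hY2 hε
  refine ⟨η / 3, by positivity, ?_⟩
  intro n p S k A δ ψ τ hδ hδ0 hp hS h0k hk hA hτ hU hconf hdrv w hw
  have hC : Crv (gam p k δ S ψ A) ((Qc p k δ S).K A) := crv6 hp hS hk hA hδ hU
  have hK : τ + 1 < (Qc p k δ S).K A := by
    change τ + 1 < len p k A + 2
    omega
  have hpos : 0 < (Qc p k δ S).K A := by omega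
  have hK' : ((τ : ℝ) + 1) + 1 ≤ (Qc p k δ S).K A := by exact_mod_cast hK
  have hτ0 : (0 : ℝ) ≤ τ := Nat.cast_nonneg _
  obtain ⟨hWc, hsg⟩ := DC.sgen (Q := Qc p k δ S) (ψ := ψ) (h := A) hC hpos
  have hce := DC.c_lt (Q := Qc p k δ S) (ψ := ψ) (h := A) hK
  have hWe := DC.W_eq (Q := Qc p k δ S) (ψ := ψ) (h := A) hC hpos
  set W := ((Qc p k δ S).expl ψ).W A with hW
  set c := ((Qc p k δ S).expl ψ).c A (τ + 1) with hc
  have hcast : ((τ + 1 : ℕ) : ℝ) = (τ : ℝ) + 1 := by push_cast; rfl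
  rw [hcast] at hce
  have hdom : loewnerDomain W c = Hm p k δ S ψ A τ := by
    rw [hce, hsg.dom ((τ : ℝ) + 1) ⟨by linarith, by linarith⟩]
    rfl
  have hzf : ∀ z ∈ Hm p k δ S ψ A τ, Zf W z c =
      gg (gam p k δ S ψ A) ((τ : ℝ) + 1) z - ww (gam p k δ S ψ A) ((τ : ℝ) + 1) := by
    intro z hz
    rw [hWe, hce]
    exact zf_gg hC (by linarith) (by linarith) (by linarith) hz
  -- the limit
  have main : ∀ b : ℝ, Lds p k δ S ψ A τ w b → dist (mb 1 Complex.I (Zf W w c))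
      (mb 1 Complex.I ((b - ww (gam p k δ S ψ A) ((τ : ℝ) + 1) : ℝ) : ℂ)) ≤ ε := by
    rintro b ⟨U, hUs, hUc, hwU, hUd, hUb⟩
    set ω := ww (gam p k δ S ψ A) ((τ : ℝ) + 1) with hω
    set g := gg (gam p k δ S ψ A) ((τ : ℝ) + 1) with hg
    have hUH : U ⊆ HH := fun z hz => (hUs hz).1
    have h1 : ∀ z ∈ U, dist (mb 1 Complex.I (Zf W w c)) (mb 1 Complex.I (g z - ω)) ≤ ε := by
      intro z hz
      rw [← hzf z (hUs hz)]
      refine hsm ψ hconf W c hdrv (ψ '' U) (image_mono (by rw [hdom]; exact hUs))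
        (hUc.image _ (hconf.diff.continuousOn.mono hUH)) ?_ w hw z (by rw [hdom]; exact hUs hz)
        ⟨w, hwU, rfl⟩ ⟨z, hz, rfl⟩
      rintro _ ⟨x, hx, rfl⟩ _ ⟨y, hy, rfl⟩
      exact (hUd x hx y hy).trans (by linarith)
    have h2 : (𝓝[g '' U] (b : ℂ)).NeBot := mem_closure_iff_nhdsWithin_neBot.1 hUb
    have hyd := hC.hydro (t := (τ : ℝ) + 1) ⟨by linarith, by linarith⟩
    have hcmb : ContinuousWithinAt (fun v : ℂ => mb 1 Complex.I (v - ω)) (g '' U) b := by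
      have h3 : ContinuousWithinAt (mb 1 Complex.I) {z | 0 ≤ z.im} ((b : ℂ) - ω) :=
        mb_continuousOn (c := Complex.I) (by simp) _ (by simp)
      have h7 : ContinuousWithinAt (fun v : ℂ => v - (ω : ℂ)) (g '' U) (b : ℂ) :=
        (continuous_id.sub continuous_const).continuousWithinAt
      refine ContinuousWithinAt.comp (f := fun v : ℂ => v - (ω : ℂ)) h3 h7 ?_
      rintro _ ⟨z, hz, rfl⟩
      have h4 : 0 < (g z).im := hyd.mapsTo (hUs hz)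
      simp only [mem_ofPred_eq, Complex.sub_im, Complex.ofReal_im, sub_zero]
      exact h4.le
    have h5 : Tendsto (fun v : ℂ => dist (mb 1 Complex.I (Zf W w c)) (mb 1 Complex.I (v - ω)))
        (𝓝[g '' U] (b : ℂ)) (𝓝 (dist (mb 1 Complex.I (Zf W w c)) (mb 1 Complex.I ((b : ℂ) - ω)))) :=
      tendsto_const_nhds.dist hcmb
    have h6 := le_of_tendsto h5 (by
      filter_upwards [self_mem_nhdsWithin] with v hv
      obtain ⟨z, hz, rfl⟩ := hv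
      exact h1 z hz)
    rw [Complex.ofReal_sub]
    exact h6
  rw [hdom] at hw
  constructor
  · intro hR
    obtain ⟨b, hb, hl⟩ := lab_right hp hS h0k hk hA hδ hτ hU hw hR
    exact ⟨_, sub_nonneg.2 hb, main b hl⟩
  · intro hL
    obtain ⟨a, ha, hl⟩ := lab_left hp hS h0k hk hA hδ hτ hU hw hL
    exact ⟨_, sub_nonpos.2 ha, main a hl⟩

/-- **(L1), (L2)** in the form of `H531.Lab`. -/
theorem lab_of {T R Rd cd Y ε : ℝ} (hRd : 0 < Rd) (hcd : 0 < cd) (hY0 : 0 < Y) (hY : 8 * R ≤ Y)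
    (hY2 : 64 * T ≤ Y ^ 2) (hε : 0 < ε) :
    ∃ d0 > 0, ∀ {n : ℕ} {p : ZMod n → ℤ × ℤ} {S : Finset (ℤ × ℤ)} {k : ℕ}
      {A : Finset (Sym2 (ℤ × ℤ))} {δ : ℝ} {ψ : ℂ → ℂ} {τ : ℕ}, 0 < δ → δ ≤ d0 → IsPolygon p →
      Encloses p S → 0 < k → k + 1 < n → A ⊆ edges S → τ ≤ len p k A →
      IsU ψ (Om δ S) (aM p δ) (bM p k δ) → HConf Rd cd Y ψ →
      Drv T R (((Qc p k δ S).expl ψ).W A) (((Qc p k δ S).expl ψ).c A (τ + 1)) →
      H531.Lab δ p k S A (τ + 1) ψ (((Qc p k δ S).expl ψ).W A)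
        (((Qc p k δ S).expl ψ).c A (τ + 1)) ε := by
  obtain ⟨d0, hd0, h⟩ := lab_nr (T := T) (R := R) hRd hcd hY0 hY hY2 hε
  refine ⟨d0, hd0, ?_⟩
  intro n p S k A δ ψ τ hδ hδ0 hp hS h0k hk hA hτ hU hconf hdrv
  have key := h hδ hδ0 hp hS h0k hk hA hτ hU hconf hdrv
  constructor
  · rintro z hz ⟨w, hw, rfl⟩
    obtain ⟨x, hx, h1⟩ := (key w hw).1 hz
    exact ⟨w, hw, rfl, x, hx, h1⟩
  · rintro z hz ⟨w, hw, rfl⟩
    obtain ⟨x, hx, h1⟩ := (key w hw).2 hz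
    exact ⟨w, hw, rfl, x, hx, h1⟩

end Vale.Agent.P167.H72
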