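import Vale.Agent.P153.R2.TOP.Sep

/-!
# P167, block CG4 (LAB), part 1: the crossing lemma

* `cross_lemma`: in the closed half-plane, a closed connected set `P` with the real points `y₀ < a` and
  a connected set `Q` with real points `b < y₁`, `y₀ < b < a < y₁`, meet.
* `Land G β a`: a half-open curve `β` which lands at the boundary, `G ∘ β` tends to the real `a`.
* `crosscut`: the same for the images of crosscuts under a continuous injective map into the
  half-plane.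
-/

set_option autoImplicit false

open Set Filter Topology Metric
open scoped Real ComplexConjugate
open P153.TOP

namespace Vale.Agent.P167.H72

theorem cross_lemma {P Q : Set ℂ} (hP : IsClosed P) (hPc : IsPreconnected P)
    (hQ : IsPreconnected Q) (hPH : ∀ z ∈ P, 0 ≤ z.im) (hQH : ∀ z ∈ Q, 0 ≤ z.im)
    (hd : Disjoint P Q) {y₀ b a y₁ : ℝ} (h1 : y₀ < b) (h2 : b < a) (h3 : a < y₁)
    (hy₀ : (y₀ : ℂ) ∈ P) (ha : (a : ℂ) ∈ P) (hb : (b : ℂ) ∈ Q) (hy₁ : (y₁ : ℂ) ∈ Q) : False := by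
  set P' : Set ℂ := {z | conj z ∈ P} with hP'
  set K : Set ℂ := P ∪ P' with hK
  have hP'i : P' = (fun z => conj z) '' P := by
    ext z
    constructor
    · intro h
      exact ⟨conj z, h, Complex.conj_conj z⟩
    · rintro ⟨w, hw, rfl⟩
      show conj (conj w) ∈ P
      rwa [Complex.conj_conj]
  have hKcl : IsClosed K := hP.union (hP.preimage Complex.continuous_conj)
  have hy₀' : (y₀ : ℂ) ∈ P' := by
    show conj (y₀ : ℂ) ∈ P
    rwa [Complex.conj_ofReal]
  have hKc : IsPreconnected K := by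
    refine IsPreconnected.union (y₀ : ℂ) hy₀ hy₀' hPc ?_
    rw [hP'i]
    exact hPc.image _ Complex.continuous_conj.continuousOn
  have hQK : Q ⊆ Kᶜ := by
    rintro z hz (h | h)
    · exact disjoint_left.1 hd h hz
    · have h4 : 0 ≤ (conj z).im := hPH _ h
      rw [Complex.conj_im] at h4
      have h5 := hQH z hz
      have h6 : z.im = 0 := by linarith
      have h7 : conj z = z := by
        apply Complex.ext
        · rw [Complex.conj_re]
        · rw [Complex.conj_im, h6, neg_zero]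
      have h8 : conj z ∈ P := h
      rw [h7] at h8
      exact disjoint_left.1 hd h8 hz
  obtain ⟨F, hF, hFe⟩ := logOn_of_preconnected hKcl hQ hQK hb hy₁
  have hKs : ∀ z ∈ K, conj z ∈ K := by
    rintro z (h | h)
    · right
      show conj (conj z) ∈ P
      rwa [Complex.conj_conj]
    · exact Or.inl h
  have hG : ContinuousOn (fun z => conj (F (conj z))) K :=
    Complex.continuous_conj.comp_continuousOn
      (hF.comp Complex.continuous_conj.continuousOn fun z hz => hKs z hz)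
  have he : ∀ z ∈ K, Complex.exp (F z) = Complex.exp (conj (F (conj z))) := by
    intro z hz
    rw [Complex.exp_conj, hFe z hz, hFe _ (hKs z hz), map_div₀, map_sub, map_sub,
      Complex.conj_conj, Complex.conj_ofReal, Complex.conj_ofReal]
  have h4 := log_diff_const hKc hF hG he (x := (y₀ : ℂ)) (y := (a : ℂ)) (Or.inl hy₀) (Or.inl ha)
  simp only [Complex.conj_ofReal] at h4
  have him : (F y₀).im = (F a).im := by
    have h5 := congrArg Complex.im h4
    simp only [Complex.sub_im, Complex.conj_im] at h5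
    linarith
  -- values
  have e1 : Complex.exp (F y₀) = ((y₀ : ℂ) - b) / (y₀ - y₁) := hFe _ (Or.inl hy₀)
  have e2 : Complex.exp (F a) = ((a : ℂ) - b) / (a - y₁) := hFe _ (Or.inl ha)
  have r1 : Real.exp (F y₀).re * Real.sin (F y₀).im = 0 ∧
      0 < Real.exp (F y₀).re * Real.cos (F y₀).im := by
    have h5 : ((y₀ : ℂ) - b) / (y₀ - y₁) = (((y₀ - b) / (y₀ - y₁) : ℝ) : ℂ) := by push_cast; rfl
    rw [h5] at e1
    have h6 := congrArg Complex.re e1
    have h7 := congrArg Complex.im e1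
    rw [Complex.exp_re, Complex.ofReal_re] at h6
    rw [Complex.exp_im, Complex.ofReal_im] at h7
    refine ⟨h7, ?_⟩
    rw [h6]
    exact div_pos_of_neg_of_neg (by linarith) (by linarith)
  have r2 : Real.exp (F a).re * Real.cos (F a).im < 0 := by
    have h5 : ((a : ℂ) - b) / (a - y₁) = (((a - b) / (a - y₁) : ℝ) : ℂ) := by push_cast; rfl
    rw [h5] at e2
    have h6 := congrArg Complex.re e2
    rw [Complex.exp_re, Complex.ofReal_re] at h6
    rw [h6]
    exact div_neg_of_pos_of_neg (by linarith) (by linarith)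
  rw [← him] at r2
  have h8 := Real.exp_pos (F y₀).re
  have h9 := Real.exp_pos (F a).re
  have h10 : 0 < Real.cos (F y₀).im := by
    by_contra hc
    push Not at hc
    have := mul_nonpos_of_nonneg_of_nonpos h8.le hc
    linarith [r1.2]
  have := mul_pos h9 h10
  linarith

/-! ### Landing curves -/

/-- The curve `β` on `(0, 1]` lands in such a way that `G ∘ β` tends to the real number `a`. -/
structure Land (G : ℂ → ℂ) (U : Set ℂ) (β : ℝ → ℂ) (a : ℝ) : Prop where
  cont : ContinuousOn β (Ioc 0 1)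
  mem : ∀ s ∈ Ioc (0 : ℝ) 1, β s ∈ U
  lim : Tendsto (fun s => G (β s)) (𝓝[>] 0) (𝓝 (a : ℂ))

theorem Land.mono {G : ℂ → ℂ} {U U' : Set ℂ} {β : ℝ → ℂ} {a : ℝ} (h : Land G U β a)
    (hU : U ⊆ U') : Land G U' β a := ⟨h.cont, fun s hs => hU (h.mem s hs), h.lim⟩

theorem Land.closed {G : ℂ → ℂ} {U : Set ℂ} {β : ℝ → ℂ} {a : ℝ} (h : Land G U β a)
    (hG : ContinuousOn G U) : IsCompact (insert (a : ℂ) ((fun s => G (β s)) '' Ioc 0 1)) ∧
      IsPreconnected (insert (a : ℂ) ((fun s => G (β s)) '' Ioc 0 1)) := by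
  have hc : ContinuousOn (fun s => G (β s)) (Ioc 0 1) := hG.comp h.cont h.mem
  set f : ℝ → ℂ := Function.update (fun s => G (β s)) 0 a with hf
  have h1 : ContinuousOn f (Icc 0 1) := by
    intro s hs
    rcases hs.1.eq_or_lt with h0 | h0
    · rw [← h0]
      refine continuousWithinAt_update_same.2 (h.lim.mono_left (nhdsWithin_mono _ ?_))
      rintro x ⟨hx, hx0⟩
      exact lt_of_le_of_ne hx.1 (Ne.symm hx0)
    · have h2 : ContinuousWithinAt (fun s => G (β s)) (Icc 0 1) s := by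
        refine (hc s ⟨h0, hs.2⟩).mono_of_mem_nhdsWithin ?_
        exact mem_of_superset (inter_mem_nhdsWithin _ (Ioi_mem_nhds h0)) fun x hx => ⟨hx.2, hx.1.2⟩
      refine h2.congr_of_eventuallyEq ?_ ?_
      · have : ∀ᶠ x in 𝓝[Icc (0 : ℝ) 1] s, x ≠ 0 :=
          mem_nhdsWithin_of_mem_nhds (isOpen_ne.mem_nhds h0.ne')
        filter_upwards [this] with x hx
        rw [hf, Function.update_of_ne hx]
      · rw [hf, Function.update_of_ne h0.ne']
  have h2 : insert (a : ℂ) ((fun s => G (β s)) '' Ioc 0 1) = f '' Icc 0 1 := by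
    ext z
    constructor
    · rintro (rfl | ⟨s, hs, rfl⟩)
      · exact ⟨0, ⟨le_rfl, zero_le_one⟩, by rw [hf, Function.update_self]⟩
      · refine ⟨s, ⟨hs.1.le, hs.2⟩, ?_⟩
        rw [hf, Function.update_of_ne hs.1.ne']
    · rintro ⟨s, hs, rfl⟩
      rcases hs.1.eq_or_lt with h0 | h0
      · left
        rw [← h0, hf, Function.update_self]
      · right
        refine ⟨s, ⟨h0, hs.2⟩, ?_⟩
        rw [hf, Function.update_of_ne h0.ne']
  rw [h2]
  exact ⟨isCompact_Icc.image_of_continuousOn h1, isPreconnected_Icc.image f h1⟩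

/-- The closure of the image of a crosscut. -/
theorem arc_of_land {G : ℂ → ℂ} {U : Set ℂ} (hG : ContinuousOn G U) {β₁ β₂ : ℝ → ℂ} {a₁ a₂ : ℝ}
    (h1 : Land G U β₁ a₁) (h2 : Land G U β₂ a₂) (hj : JoinedIn U (β₁ 1) (β₂ 1)) :
    ∃ P : Set ℂ, IsClosed P ∧ IsPreconnected P ∧ (a₁ : ℂ) ∈ P ∧ (a₂ : ℂ) ∈ P ∧
      P ⊆ insert (a₁ : ℂ) (insert (a₂ : ℂ) (G '' U)) := by
  obtain ⟨γ, hγ⟩ := hj
  set R : Set ℂ := (fun s => G (γ s)) '' univ with hR
  have hc : Continuous fun s => G (γ s) := by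
    rw [← continuousOn_univ]
    exact hG.comp γ.continuous.continuousOn fun s _ => hγ s
  have hR1 : IsCompact R := isCompact_univ.image hc
  have hR2 : IsPreconnected R := isPreconnected_univ.image _ hc.continuousOn
  obtain ⟨c1, c2⟩ := h1.closed hG
  obtain ⟨d1, d2⟩ := h2.closed hG
  have m1 : G (β₁ 1) ∈ insert (a₁ : ℂ) ((fun s => G (β₁ s)) '' Ioc 0 1) :=
    Or.inr ⟨1, ⟨one_pos, le_rfl⟩, rfl⟩
  have m2 : G (β₂ 1) ∈ insert (a₂ : ℂ) ((fun s => G (β₂ s)) '' Ioc 0 1) :=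
    Or.inr ⟨1, ⟨one_pos, le_rfl⟩, rfl⟩
  have m3 : G (β₁ 1) ∈ R := ⟨0, mem_univ _, by simp only [γ.source]⟩
  have m4 : G (β₂ 1) ∈ R := ⟨1, mem_univ _, by simp only [γ.target]⟩
  refine ⟨(insert (a₁ : ℂ) ((fun s => G (β₁ s)) '' Ioc 0 1) ∪ R) ∪
    insert (a₂ : ℂ) ((fun s => G (β₂ s)) '' Ioc 0 1), ?_, ?_, ?_, ?_, ?_⟩
  · exact ((c1.union hR1).union d1).isClosed
  · exact (IsPreconnected.union _ m1 m3 c2 hR2).union _ (Or.inr m4) m2 d2
  · exact Or.inl (Or.inl (Or.inl rfl))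
  · exact Or.inr (Or.inl rfl)
  · rintro z ((hz | ⟨s, -, rfl⟩) | hz)
    · rcases hz with rfl | ⟨s, hs, rfl⟩
      · exact Or.inl rfl
      · exact Or.inr (Or.inr ⟨_, h1.mem s hs, rfl⟩)
    · exact Or.inr (Or.inr ⟨_, hγ s, rfl⟩)
    · rcases hz with rfl | ⟨s, hs, rfl⟩
      · exact Or.inr (Or.inl rfl)
      · exact Or.inr (Or.inr ⟨_, h2.mem s hs, rfl⟩)

/-- **Crosscuts with interlaced ends meet.** -/
theorem crosscut {G : ℂ → ℂ} {O U V : Set ℂ} (hG : ContinuousOn G O) (hi : InjOn G O)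
    (hm : ∀ z ∈ O, 0 < (G z).im) (hU : U ⊆ O) (hV : V ⊆ O) (hd : Disjoint U V)
    {β₁ β₂ β₃ β₄ : ℝ → ℂ} {y₀ b a y₁ : ℝ} (h1 : Land G U β₁ y₀) (h2 : Land G U β₂ a)
    (h3 : Land G V β₃ b) (h4 : Land G V β₄ y₁) (hj : JoinedIn U (β₁ 1) (β₂ 1))
    (hj' : JoinedIn V (β₃ 1) (β₄ 1)) (l1 : y₀ < b) (l2 : b < a) (l3 : a < y₁) : False := by
  obtain ⟨P, p1, p2, p3, p4, p5⟩ := arc_of_land (hG.mono hU) h1 h2 hj
  obtain ⟨Q, q1, q2, q3, q4, q5⟩ := arc_of_land (hG.mono hV) h3 h4 hj'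
  have hre : ∀ (x : ℝ) (U' : Set ℂ), U' ⊆ O → (x : ℂ) ∉ G '' U' := by
    rintro x U' hU' ⟨z, hz, he⟩
    have h5 := hm z (hU' hz)
    rw [he, Complex.ofReal_im] at h5
    exact lt_irrefl _ h5
  have hne : ∀ x y : ℝ, x < y → (x : ℂ) ≠ y := fun x y hxy he => hxy.ne (Complex.ofReal_injective he)
  refine cross_lemma p1 p2 q2 ?_ ?_ ?_ l1 l2 l3 p3 p4 q3 q4
  · intro z hz
    rcases p5 hz with rfl | rfl | ⟨w, hw, rfl⟩
    · simp
    · simp
    · exact (hm w (hU hw)).le
  · intro z hz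
    rcases q5 hz with rfl | rfl | ⟨w, hw, rfl⟩
    · simp
    · simp
    · exact (hm w (hV hw)).le
  · rw [disjoint_left]
    intro z hz hz'
    rcases p5 hz with rfl | rfl | ⟨w, hw, rfl⟩
    · rcases q5 hz' with h | h | h
      · exact hne _ _ l1 h
      · exact hne _ _ (l1.trans (l2.trans l3)) h
      · exact hre _ V hV h
    · rcases q5 hz' with h | h | h
      · exact hne _ _ l2 h.symm
      · exact hne _ _ l3 h
      · exact hre _ V hV h
    · rcases q5 hz' with h | h | ⟨w', hw', he⟩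
      · exact hre _ U hU ⟨w, hw, h⟩
      · exact hre _ U hU ⟨w, hw, h⟩
      · rw [hi (hV hw') (hU hw) he] at hw'
        exact disjoint_left.1 hd hw hw'

end Vale.Agent.P167.H72
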