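import Vale.Agent.P167.H72.Dom

/-!
# P167, block CG4 (LAB), part 5: the left and the right chain

`UL`, `UR`: disjoint subsets of the domain minus the path. The visited vertices are joined in `UL` to
the outside of a wired edge, the visited faces in `UR` to the outside of a free edge.
-/

set_option linter.unusedSimpArgs false
set_option linter.unusedVariables false
set_option linter.unusedSectionVars false

open Set Metric

namespace Vale.Agent.P167.H72

open Vale.Agent.P167.E6 Vale.Agent.P167.E2 Vale.Agent.P167.Fjord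

variable {n : ℕ} {p : ZMod n → ℤ × ℤ} {S : Finset (ℤ × ℤ)} {k : ℕ} {A : Finset (Sym2 (ℤ × ℤ))}

/-- The left region. -/
def UL (S : Finset (ℤ × ℤ)) (p : ZMod n → ℤ × ℤ) (k : ℕ) (δ : ℝ) (A : Finset (Sym2 (ℤ × ℤ)))
    (τ : ℕ) : Set ℂ := {z | z ∈ Dt S p k δ A τ ∧ LP (wiredOpen p k A) (Wd p k) z}

/-- The right region. -/
def UR (S : Finset (ℤ × ℤ)) (p : ZMod n → ℤ × ℤ) (k : ℕ) (δ : ℝ) (A : Finset (Sym2 (ℤ × ℤ)))
    (τ : ℕ) : Set ℂ := {z | z ∈ Dt S p k δ A τ ∧ RP (wiredOpen p k A) (Wd p k) z}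

theorem wd_sub : Wd p k ⊆ wiredOpen p k A := fun _ h => Or.inr h

theorem UL_UR {δ : ℝ} {τ : ℕ} : Disjoint (UL S p k δ A τ) (UR S p k δ A τ) := by
  rw [disjoint_left]
  rintro z ⟨-, h⟩ ⟨-, h'⟩
  exact LP_RP wd_sub h h'

/-- The outer dart of the edge of the polygon from `p i` to `p (i + 1)`. -/
noncomputable def od (p : ZMod n → ℤ × ℤ) (i : ZMod n) : Medial := (p i, ro p i - 1)

theorem ahead_od (hp : IsPolygon p) (i : ZMod n) : ahead (od p i) = s(p i, p (i + 1)) :=
  ahead_ro hp i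

theorem fc_od (hp : IsPolygon p) (hS : Encloses p S) (i : ZMod n) : fc (od p i) ∉ S :=
  (enc_out hp hS (i := i)).2

theorem adv_od (hp : IsPolygon p) (i : ZMod n) : adv (od p i) = (p (i + 1), ri p (i + 1)) :=
  adv_ro hp i

theorem od_edge (hp : IsPolygon p) (hS : Encloses p S) (i : ZMod n) :
    ahead (od p i) ∈ edges S := by
  rw [ahead_od hp]
  exact p_edge hp hS i

/-- `i` is the index of a free edge of the polygon (`i = n - 1` or `i < k`). -/
def Fe (n k : ℕ) (i : ℕ) : Prop := i < k ∨ i + 1 = n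

theorem not_wd_of_fe (hp : IsPolygon p) (hk : k + 1 < n) {i : ℕ} (hi : Fe n k i) :
    ahead (od p (i : ZMod n)) ∉ Wd p k := by
  have hn : n ≠ 0 := by omega
  rw [ahead_od hp]
  rintro ⟨j, h1, h2, h3⟩
  have hin : i < n := by rcases hi with h | h <;> omega
  rw [Sym2.eq_iff] at h3
  rcases h3 with ⟨h3, -⟩ | ⟨h3, h4⟩
  · have := cast_inj hn hin (by omega) (hp.2.1 h3)
    rcases hi with h | h <;> omega
  · have e1 : (i : ZMod n) = ((j + 1 : ℕ) : ZMod n) := by
      push_cast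
      exact hp.2.1 h3
    have e2 : ((i : ℕ) : ZMod n) + 1 = (j : ZMod n) := hp.2.1 h4
    have e3 := cast_inj hn hin (by omega) e1
    rw [e1] at e2
    push_cast at e2
    have e4 : ((2 : ℕ) : ZMod n) = ((0 : ℕ) : ZMod n) := by
      push_cast
      have : (j : ZMod n) + 1 + 1 = j + 0 := by rw [e2, add_zero]
      rw [add_assoc] at this
      have := add_left_cancel this
      rw [one_add_one_eq_two] at this
      exact this
    have := cast_inj hn (by have := hp.1; omega) (by omega) e4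
    omega

/-- The open box of radius `1` around a vertex. -/
def Bxo (v : ℤ × ℤ) : Set ℂ := {z | (v.1 - 1 < z.re ∧ z.re < v.1 + 1) ∧ (v.2 - 1 < z.im ∧
  z.im < v.2 + 1)}

theorem convex_Bxo (v : ℤ × ℤ) : Convex ℝ (Bxo v) := by
  intro x hx y hy a b ha hb hab
  obtain ⟨⟨x1, x2⟩, x3, x4⟩ := hx
  obtain ⟨⟨y1, y2⟩, y3, y4⟩ := hy
  have hb' : b = 1 - a := by linarith
  subst hb'
  simp only [Bxo, mem_ofPred_eq, Complex.add_re, Complex.add_im, Complex.real_smul,
    Complex.re_ofReal_mul, Complex.im_ofReal_mul]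
  rcases ha.eq_or_lt with h0 | h0
  · rw [← h0]
    refine ⟨⟨?_, ?_⟩, ?_, ?_⟩ <;> linarith
  have q1 := mul_lt_mul_of_pos_left x1 h0
  have q2 := mul_lt_mul_of_pos_left x2 h0
  have q3 := mul_lt_mul_of_pos_left x3 h0
  have q4 := mul_lt_mul_of_pos_left x4 h0
  have r1 := mul_le_mul_of_nonneg_left y1.le hb
  have r2 := mul_le_mul_of_nonneg_left y2.le hb
  have r3 := mul_le_mul_of_nonneg_left y3.le hb
  have r4 := mul_le_mul_of_nonneg_left y4.le hb
  refine ⟨⟨?_, ?_⟩, ?_, ?_⟩ <;> linarith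

theorem cpt_Bxo {θ : ℝ} (h0 : 0 ≤ θ) (h1 : θ < 1) (c : Medial) : cpt θ c ∈ Bxo c.1 := by
  obtain ⟨v, r⟩ := c
  revert r
  refine forall4 ?_ ?_ ?_ ?_ <;> simp only [Bxo, cpt_0, cpt_1, cpt_2, cpt_3, mem_ofPred_eq] <;>
    refine ⟨⟨?_, ?_⟩, ?_, ?_⟩ <;> linarith

theorem qp0_Bxo {t : ℝ} (h0 : 0 ≤ t) (h1 : t < 1) (c : Medial) : qp c 0 t ∈ Bxo c.1 := by
  obtain ⟨v, r⟩ := c
  revert r
  refine forall4 ?_ ?_ ?_ ?_ <;>
    simp only [Bxo, f4_01, f4_11, f4_21, f4_31, qp, Fjord.em, adv_0,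
      adv_1, adv_2, adv_3, dir0, dir1, dir2, dir3, mem_ofPred_eq] <;> push_cast <;>
    refine ⟨⟨?_, ?_⟩, ?_, ?_⟩ <;> linarith

theorem qo_Bxo (c : Medial) : qo c ∈ Bxo c.1 := by
  rw [qo_qp]
  exact qp0_Bxo (by norm_num) (by norm_num) c

theorem pD_sub (c : Medial) : segment ℝ (cpt (5 / 16) c) (qo c) ⊆
    segment ℝ (cpt (5 / 16) c) (cpt (5 / 16) (adv c)) := by
  refine (convex_segment _ _).segment_subset (left_mem_segment _ _ _) ?_
  exact pD'_sub c (left_mem_segment _ _ _)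

theorem ends_in {X : Set ℂ} {a b : ℂ} (h : segment ℝ a b ⊆ X) : JoinedIn X a b :=
  JoinedIn.of_segment_subset h

section chains

variable (hp : IsPolygon p) (hS : Encloses p S) (h0k : 0 < k) (hk : k + 1 < n)
  (hA : A ⊆ edges S) {δ : ℝ} (hδ : 0 < δ) {τ : ℕ} (hτ : τ ≤ len p k A)
include hp hS h0k hk hA hδ hτ

/-- half of an open edge -/
theorem jB {c : Medial} (hc : ahead c ∈ wiredOpen p k A) :
    JoinedIn (UL S p k δ A τ) (pt c.1) (Fjord.em c) :=
  ends_in fun z hz => ⟨sB hδ hτ (wired_sub hp hS hA hc) hc hz, Or.inl ⟨c, hc, hz⟩⟩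

/-- an open edge -/
theorem jBB {c : Medial} (hc : ahead c ∈ wiredOpen p k A) :
    JoinedIn (UL S p k δ A τ) (pt c.1) (pt (adv c).1) := by
  have h1 := jB hp hS h0k hk hA hδ hτ hc
  have h2 := jB hp hS h0k hk hA hδ hτ (c := par c) (by rw [ahead_par]; exact hc)
  rw [em_congr (ahead_par c)] at h2
  exact h1.trans h2.symm

/-- The path does not pass along the outside of a wired edge. -/
theorem not_er_wired {i : ℕ} (h1 : k ≤ i) (h2 : i + 1 < n) :
    ¬ Er p k A τ (od p (i : ZMod n)) (adv (od p (i : ZMod n))) := by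
  rintro ⟨l, hl, h3, -⟩
  have hn : n ≠ 0 := by omega
  rcases Nat.eq_zero_or_pos l with h0 | h0
  · rw [h0, run_zero] at h3
    have h4 : p (i : ZMod n) = p (-1) := congrArg Prod.fst h3
    have h5 : ((n - 1 : ℕ) : ZMod n) = -1 := by
      rw [Nat.cast_sub (by omega)]
      simp
    rw [← h5] at h4
    have := cast_inj hn (by omega) (by omega) (hp.2.1 h4)
    omega
  · refine H174.not_ext_wired hp hS h0k (by omega) hA l h0 (by omega) ?_
    rw [← h3]
    exact ⟨fc_od hp hS _, i, h1, by omega, rfl⟩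

/-- The landing at a wired edge. -/
theorem lw {i : ℕ} (h1 : k ≤ i) (h2 : i + 1 < n) {t : ℝ} (h3 : 0 ≤ t) (h4 : t < 3 / 8) :
    qp (od p (i : ZMod n)) 0 t ∈ UL S p k δ A τ := by
  refine ⟨sO hδ hτ (od_edge hp hS _) (fc_od hp hS _) (not_er_wired hp hS h0k hk hA hδ hτ h1 h2) h3
    h4, Or.inr (Or.inr ⟨_, t, ?_, h3, h4, rfl⟩)⟩
  rw [ahead_od hp]
  exact ⟨i, h1, h2, rfl⟩

theorem qp_joined {U : Set ℂ} {c : Medial} {a b : ℝ} (hab : a ≤ b)
    (h : ∀ t, a ≤ t → t ≤ b → qp c 0 t ∈ U) : JoinedIn U (qp c 0 a) (qp c 0 b) := by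
  refine ends_in fun z hz => ?_
  obtain ⟨s, h0, h1, rfl⟩ := seg_qp hz
  have e : (0 : ℝ) + s * (0 - 0) = 0 := by ring
  rw [e]
  exact h _ (by nlinarith) (by nlinarith)

/-- **The left chain.** -/
theorem left_chain : ∀ j ≤ τ,
    JoinedIn (UL S p k δ A τ) (pt (run p k A j).1) (qo (od p ((n - 2 : ℕ) : ZMod n))) := by
  have hn : n ≠ 0 := by omega
  intro j
  induction j with
  | zero =>
    intro _
    rw [qo_qp, run_zero]
    have h1 : adv (od p ((n - 2 : ℕ) : ZMod n)) = (p (-1), ri p (-1)) := by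
      rw [adv_od hp]
      have : ((n - 2 : ℕ) : ZMod n) + 1 = -1 := by
        rw [Nat.cast_sub (by omega)]
        push_cast
        rw [ZMod.natCast_self]
        ring
      rw [this]
    have hw : ahead (od p ((n - 2 : ℕ) : ZMod n)) ∈ wiredOpen p k A := by
      rw [ahead_od hp]
      exact Or.inr ⟨n - 2, by omega, by omega, rfl⟩
    have h2 := jB hp hS h0k hk hA hδ hτ (c := par (od p ((n - 2 : ℕ) : ZMod n)))
      (by rw [ahead_par]; exact hw)
    rw [em_congr (ahead_par _)] at h2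
    have h3 : (par (od p ((n - 2 : ℕ) : ZMod n))).1 = p (-1) := by
      show (adv (od p ((n - 2 : ℕ) : ZMod n))).1 = _
      rw [h1]
    rw [h3, em_qp] at h2
    refine h2.trans (qp_joined hp hS h0k hk hA hδ hτ (by norm_num) fun t h4 h5 => ?_)
    exact lw hp hS h0k hk hA hδ hτ (by omega) (by omega) h4 (by linarith)
  | succ j ih =>
    intro hj
    rcases next_step (wiredOpen p k A) (run p k A j) with ⟨h1, h2, h3⟩ | ⟨h1, h2, h3⟩
    · rw [← run_succ] at h2
      have h4 := jBB hp hS h0k hk hA hδ hτ (c := run p k A j) h1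
      rw [← h2] at h4
      exact h4.symm.trans (ih (by omega))
    · have h6 : (run p k A (j + 1)).1 = (run p k A j).1 := by
        rw [run_succ, h3.fstI]
      rw [h6]
      exact ih (by omega)

/-- half of a closed dual edge -/
theorem jA {c : Medial} (hf : fc c ∈ S) (hc : ahead c ∉ wiredOpen p k A) :
    JoinedIn (UR S p k δ A τ) (Fjord.em c) (ctr (fc c)) :=
  ends_in fun z hz => ⟨sA hδ hτ hf hc hz, Or.inl ⟨c, hc, hz⟩⟩

/-- An outer dart at a closed edge of the domain. -/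
theorem outer_free {c : Medial} (he : ahead c ∈ edges S) (hf : fc c ∉ S)
    (hc : ahead c ∉ wiredOpen p k A) : ∃ i, Fe n k i ∧ c = od p (i : ZMod n) := by
  have hn : n ≠ 0 := by omega
  obtain ⟨i, hi1, hi2⟩ := edge_ext hS he hf
  obtain ⟨l, hl, rfl⟩ := H174.nat_of_zmod hn i
  have hc1 : c = od p (l : ZMod n) := by
    have : c.2 + 1 = ro p (l : ZMod n) := by
      apply ro_unique hp
      rw [hi2, hi1]
    apply Prod.ext
    · exact hi1.symm
    · show c.2 = ro p (l : ZMod n) - 1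
      rw [← this, fin4_2]
  refine ⟨l, ?_, hc1⟩
  by_contra hcon
  unfold Fe at hcon
  push Not at hcon
  apply hc
  refine Or.inr ⟨l, hcon.1, by omega, ?_⟩
  rw [hc1, ahead_od hp]

/-- The landing at a free edge. -/
theorem lq {i : ℕ} (hi : Fe n k i) {t : ℝ} (h3 : 5 / 16 ≤ t) (h4 : t < 3 / 8) :
    qp (od p (i : ZMod n)) 0 t ∈ UR S p k δ A τ :=
  ⟨sQ hδ hτ (od_edge hp hS _) (fc_od hp hS _) (by linarith) h4,
    Or.inr (Or.inr (Or.inr (Or.inr ⟨_, t, not_wd_of_fe hp hk hi, h3, h4, rfl⟩)))⟩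

/-- The normal of a closed free edge. -/
theorem em_qo {c : Medial} (he : ahead c ∈ edges S) (hf : fc c ∉ S)
    (hc : ahead c ∉ wiredOpen p k A) : JoinedIn (UR S p k δ A τ) (Fjord.em c) (qo c) := by
  rw [em_qp, qo_qp]
  refine qp_joined hp hS h0k hk hA hδ hτ (by norm_num) fun t h1 h2 => ⟨?_, Or.inl ⟨c, hc, ?_⟩⟩
  · exact sO hδ hτ he hf (fun h => hc (er_F h (Or.inl ⟨rfl, rfl⟩))) h1 (by linarith)
  · exact qp0_seg h1 (by linarith) c

/-- **The right chain.** -/
theorem right_chain : ∀ j ≤ τ, fc (run p k A j) ∈ S →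
    ∃ i, Fe n k i ∧ JoinedIn (UR S p k δ A τ) (ctr (fc (run p k A j))) (qo (od p (i : ZMod n))) := by
  intro j
  induction j with
  | zero =>
    intro _ hf
    rw [run_zero] at hf
    exact absurd hf (fc_cs hp hS)
  | succ j ih =>
    intro hj hf
    rcases next_step (wiredOpen p k A) (run p k A j) with ⟨h1, h2, h3⟩ | ⟨h1, h2, h3⟩
    · rw [← run_succ] at h3
      rw [h3.fc] at hf ⊢
      exact ih (by omega) hf
    · rw [← run_succ] at h2
      set c := run p k A j with hc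
      have hfr : fc (rot c) ∈ S := h2 ▸ hf
      have he : ahead c ∈ edges S := (mem_edges (c.2 + 1)).2 (Or.inl hfr)
      have hpar : fc (par c) = fc (rot c) := by rw [← adv_par, fc_advI]
      have h4 := jA hp hS h0k hk hA hδ hτ (c := par c) (by rw [hpar]; exact hfr)
        (by rw [ahead_par]; exact h1)
      rw [hpar, em_congr (ahead_par c)] at h4
      rw [h2]
      by_cases hfc : fc c ∈ S
      · obtain ⟨i, hi, h5⟩ := ih (by omega) hfc
        exact ⟨i, hi, h4.symm.trans ((jA hp hS h0k hk hA hδ hτ hfc h1).trans h5)⟩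
      · obtain ⟨i, hi, h5⟩ := outer_free hp hS h0k hk hA hδ hτ he hfc h1
        have h6 := em_qo hp hS h0k hk hA hδ hτ he hfc h1
        rw [h5] at h4 h6
        refine ⟨i, hi, ?_⟩
        rw [h5]
        exact h4.symm.trans h6

/-! ### Outside of a free vertex -/

omit hp hS h0k hk hA hδ hτ in
theorem ne_cs {l : ℕ} (hk : k + 1 < n) (hp : IsPolygon p) (hl : l ≤ k) {c : Medial}
    (hc : c.1 = p (l : ZMod n)) : c ≠ cs p := by
  intro h
  have hn : n ≠ 0 := by omega
  have h4 : p (l : ZMod n) = p (-1) := by rw [← hc, h]; rfl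
  have h5 : ((n - 1 : ℕ) : ZMod n) = -1 := by
    rw [Nat.cast_sub (by omega)]
    simp
  rw [← h5] at h4
  have := cast_inj hn (by omega) (by omega) (hp.2.1 h4)
  omega

/-- The last part of the corridor, along the outgoing edge. -/
theorem qo_out {l : ℕ} (hl : l < k) : JoinedIn (UR S p k δ A τ ∩ Bxo (p (l : ZMod n)))
    (cpt (5 / 16) (od p (l : ZMod n))) (qo (od p (l : ZMod n))) := by
  refine ends_in fun z hz => ⟨⟨?_, ?_⟩, ?_⟩
  · refine sD hδ hτ (od_edge hp hS _) (ne_cs hk hp hl.le rfl) (ne_cs (l := l + 1) hk hp hl ?_)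
      (pD_sub _ hz)
    rw [adv_od hp]
    push_cast
    rfl
  · exact Or.inr (Or.inr (Or.inr (Or.inl ⟨_, not_wd_of_fe hp hk (Or.inl hl), pD_sub _ hz⟩)))
  · refine (convex_Bxo _).segment_subset ?_ ?_ hz
    · exact cpt_Bxo (by norm_num) (by norm_num) (od p (l : ZMod n))
    · exact qo_Bxo (od p (l : ZMod n))

/-- Around a free vertex on the outside. -/
theorem corner_out {l : ℕ} (hl : l < k) : ∀ (t : ℕ) (r : Fin 4),
    (ro p (l : ZMod n) - 1 - r).val = t → face (p (l : ZMod n)) r ∉ S →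
    JoinedIn (UR S p k δ A τ ∩ Bxo (p (l : ZMod n))) (cpt (5 / 16) (p (l : ZMod n), r))
      (qo (od p (l : ZMod n))) := by
  intro t
  induction t with
  | zero =>
    intro r hr hf
    rw [ro_aux' _ _ hr]
    exact qo_out hp hS h0k hk hA hδ hτ hl
  | succ t ih =>
    intro r hr hf
    have ht : t < 4 := by
      have := (ro p (l : ZMod n) - 1 - r).isLt
      omega
    have hne : r + 1 ≠ ro p (l : ZMod n) := by
      rintro he
      rw [← he, fin4_2, sub_self] at hr
      simp at hr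
    have hf' : face (p (l : ZMod n)) (r + 1) ∉ S := fun hf' =>
      hne (cross_out hp hS hf hf').1
    refine JoinedIn.trans ?_ (ih (r + 1) (ro_aux _ _ ⟨t, ht⟩ hr) hf')
    have hc : ahead (p (l : ZMod n), r) ∉ wiredOpen p k A := by
      intro h
      have h1 := (mem_edges (r + 1)).1 (wired_sub hp hS hA h)
      rw [fin4_2] at h1
      rcases h1 with h1 | h1
      exacts [hf' h1, hf h1]
    refine ends_in fun z hz => ⟨⟨?_, ?_⟩, ?_⟩
    · exact sE hδ hτ (p_mem_verts hp hS _) hc (ne_cs hk hp hl.le rfl) (ne_cs hk hp hl.le rfl) hz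
    · exact Or.inr (Or.inr (Or.inl ⟨_, hc, hz⟩))
    · refine (convex_Bxo _).segment_subset ?_ ?_ hz
      · exact cpt_Bxo (by norm_num) (by norm_num) (p (l : ZMod n), r)
      · exact cpt_Bxo (by norm_num) (by norm_num) (p (l : ZMod n), r + 1)

/-- **The tip on the outside.** -/
theorem tip_out (h1 : 1 ≤ τ) (hf : fc (run p k A τ) ∉ S) :
    ∃ i, Fe n k i ∧
      JoinedIn (UR S p k δ A τ) (cpt (5 / 16) (run p k A τ)) (qo (od p (i : ZMod n))) := by
  rcases hτ.lt_or_eq with h2 | h2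
  · obtain ⟨l, hl, h3⟩ := H174.ext_free hp hS h0k (by omega) hA h1 h2 hf
    refine ⟨l, Or.inl hl, ?_⟩
    set c := run p k A τ with hc
    obtain ⟨v, r⟩ := c
    simp only at h3
    subst h3
    exact (corner_out hp hS h0k hk hA hδ hτ hl _ r rfl hf).mono inter_subset_left
  · refine ⟨k - 1, Or.inl (by omega), ?_⟩
    rw [h2, run_len hp hS (by omega) hA]
    have e1 : (((k - 1 : ℕ) : ZMod n)) + 1 = (k : ZMod n) := by
      rw [Nat.cast_sub (by omega)]
      push_cast
      ring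
    have e2 : adv (od p ((k - 1 : ℕ) : ZMod n)) = ce p k := by
      rw [adv_od hp, e1]
      rfl
    rw [← e2]
    have h3 : JoinedIn (UR S p k δ A (len p k A)) (qo (od p ((k - 1 : ℕ) : ZMod n)))
        (cpt (5 / 16) (adv (od p ((k - 1 : ℕ) : ZMod n)))) := by
      refine ends_in fun z hz => ⟨?_, ?_⟩
      · refine sD hδ le_rfl (od_edge hp hS _) (ne_cs (l := k - 1) hk hp (by omega) rfl)
          (ne_cs (l := k) hk hp le_rfl ?_) (pD'_sub _ hz)
        rw [e2]
        rfl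
      · exact Or.inr (Or.inr (Or.inr (Or.inl ⟨_, not_wd_of_fe hp hk (Or.inl (by omega)),
          pD'_sub _ hz⟩)))
    exact h3.symm

end chains

end Vale.Agent.P167.H72
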