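import Vale.Agent.P167.H72.Cells

/-!
# P167, block CG4 (LAB), part 4: the pieces avoid the path

`Zt` is the path up to the step `τ` (mesh `1`), `Dt = O1 ∖ Zt`.
-/

set_option linter.unusedSimpArgs false
set_option linter.unusedVariables false
set_option linter.unnecessarySeqFocus false
set_option linter.unusedTactic false

open Set Metric

namespace Vale.Agent.P167.H72

open Vale.Agent.P167.E6 Vale.Agent.P167.E2 Vale.Agent.P167.Fjord

variable {n : ℕ} {p : ZMod n → ℤ × ℤ} {S : Finset (ℤ × ℤ)} {k : ℕ} {A : Finset (Sym2 (ℤ × ℤ))}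

/-! ### Points in the interior of a cell -/

/-- `z` is in the interior of a cell of the corner lattice. -/
def Ins (z : ℂ) : Prop := (∃ m : ℤ, (m : ℝ) < 2 * z.re - 1 / 2 ∧ 2 * z.re - 1 / 2 < m + 1) ∧
  ∃ l : ℤ, (l : ℝ) < 2 * z.im - 1 / 2 ∧ 2 * z.im - 1 / 2 < l + 1

theorem no_int {m l : ℤ} {x : ℝ} (h1 : (m : ℝ) < x) (h2 : x < m + 1) (h : x = l) : False := by
  rw [h] at h1 h2
  have h3 : m < l := by exact_mod_cast h1
  have h4 : l < m + 1 := by exact_mod_cast h2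
  omega

theorem ins_on {z : ℂ} (hz : Ins z) {e : Sym2 (ℤ × ℤ)} {x y : Medial}
    (h : VStep e x y ∨ FStep e x y) : z ∉ Lseg x y := by
  intro hz'
  obtain ⟨⟨m, h1, h2⟩, l, h3, h4⟩ := hz
  obtain ⟨m', h5, -⟩ := on_v h hz' h3 h4
  exact no_int h1 h2 h5

theorem ins_ne {z : ℂ} (hz : Ins z) (d : Medial) : z ≠ cpt (1 / 4) d := by
  rintro rfl
  obtain ⟨⟨m, h1, h2⟩, -⟩ := hz
  refine no_int h1 h2 (l := (hl d).1) ?_
  rw [c14_re]
  ring

/-- the cell of a vertex -/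
theorem ins_v {v : ℤ × ℤ} {z : ℂ} (h1 : |z.re - v.1| < 1 / 4) (h2 : |z.im - v.2| < 1 / 4) :
    Ins z := by
  rw [abs_lt] at h1 h2
  exact ⟨⟨2 * v.1 - 1, by push_cast; linarith, by push_cast; linarith⟩,
    ⟨2 * v.2 - 1, by push_cast; linarith, by push_cast; linarith⟩⟩

/-- the cell of a face -/
theorem ins_f {f : ℤ × ℤ} {z : ℂ} (h1 : |z.re - (f.1 + 1 / 2)| < 1 / 4)
    (h2 : |z.im - (f.2 + 1 / 2)| < 1 / 4) : Ins z := by
  rw [abs_lt] at h1 h2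
  exact ⟨⟨2 * f.1, by push_cast; linarith, by push_cast; linarith⟩,
    ⟨2 * f.2, by push_cast; linarith, by push_cast; linarith⟩⟩

/-- local coordinates -/
theorem ins_qp {c : Medial} {u t : ℝ} (hu : |u| < 1 / 4) (ht : |t| < 1 / 4 ∨ (1 / 4 < |t| ∧
    |t| < 3 / 4)) : Ins (qp c u t) := by
  rw [abs_lt] at hu
  have ht' : (-(1 / 4) < t ∧ t < 1 / 4) ∨ (1 / 4 < t ∧ t < 3 / 4) ∨ (-(3 / 4) < t ∧ t < -(1 / 4)) := by
    rcases ht with ht | ⟨h1, h2⟩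
    · left; rwa [abs_lt] at ht
    · right
      rw [abs_lt] at h2
      rcases lt_abs.1 h1 with h1 | h1
      · exact Or.inl ⟨h1, h2.2⟩
      · exact Or.inr ⟨h2.1, by linarith⟩
  clear ht
  obtain ⟨v, r⟩ := c
  have key : ∀ (x : ℝ) (m : ℤ), (x = m + t ∨ x = m - t) →
      ∃ l : ℤ, (l : ℝ) < 2 * x - 1 / 2 ∧ 2 * x - 1 / 2 < l + 1 := by
    rintro x m (rfl | rfl) <;> rcases ht' with ⟨h1, h2⟩ | ⟨h1, h2⟩ | ⟨h1, h2⟩
    · exact ⟨2 * m - 1, by push_cast; linarith, by push_cast; linarith⟩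
    · exact ⟨2 * m, by push_cast; linarith, by push_cast; linarith⟩
    · exact ⟨2 * m - 2, by push_cast; linarith, by push_cast; linarith⟩
    · exact ⟨2 * m - 1, by push_cast; linarith, by push_cast; linarith⟩
    · exact ⟨2 * m - 2, by push_cast; linarith, by push_cast; linarith⟩
    · exact ⟨2 * m, by push_cast; linarith, by push_cast; linarith⟩
  have key' : ∀ (x : ℝ) (m : ℤ), (x = m + 1 / 2 + u ∨ x = m + 1 / 2 - u) →
      ∃ l : ℤ, (l : ℝ) < 2 * x - 1 / 2 ∧ 2 * x - 1 / 2 < l + 1 := by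
    rintro x m (rfl | rfl)
    · exact ⟨2 * m, by push_cast; linarith, by push_cast; linarith⟩
    · exact ⟨2 * m, by push_cast; linarith, by push_cast; linarith⟩
  revert r
  refine forall4 ?_ ?_ ?_ ?_ <;>
    simp only [Ins, qp, Fjord.em, adv_0, adv_1, adv_2, adv_3, dir0, dir1, dir2, dir3, f4_01, f4_11,
      f4_21, f4_31, Int.cast_one, Int.cast_zero, Int.cast_neg, mul_one, mul_zero, mul_neg, add_zero,
      Int.cast_add, Int.cast_sub]
  · exact ⟨key _ v.1 (Or.inl (by ring)), key' _ v.2 (Or.inl (by ring))⟩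
  · exact ⟨key' _ (v.1 - 1) (Or.inr (by push_cast; ring)), key _ v.2 (Or.inl (by ring))⟩
  · exact ⟨key _ v.1 (Or.inr (by ring)), key' _ (v.2 - 1) (Or.inr (by push_cast; ring))⟩
  · exact ⟨key' _ v.1 (Or.inl (by ring)), key _ v.2 (Or.inr (by ring))⟩

theorem ins_cpt {c : Medial} {θ : ℝ} (h : (0 ≤ θ ∧ θ < 1 / 4) ∨ (1 / 4 < θ ∧ θ ≤ 1 / 2)) :
    Ins (cpt θ c) := by
  have key : ∀ (x : ℝ) (m : ℤ), (x = m + θ ∨ x = m - θ) →
      ∃ l : ℤ, (l : ℝ) < 2 * x - 1 / 2 ∧ 2 * x - 1 / 2 < l + 1 := by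
    rintro x m (rfl | rfl) <;> rcases h with ⟨h1, h2⟩ | ⟨h1, h2⟩
    · exact ⟨2 * m - 1, by push_cast; linarith, by push_cast; linarith⟩
    · exact ⟨2 * m, by push_cast; linarith, by push_cast; linarith⟩
    · exact ⟨2 * m - 1, by push_cast; linarith, by push_cast; linarith⟩
    · exact ⟨2 * m - 2, by push_cast; linarith, by push_cast; linarith⟩
  obtain ⟨v, r⟩ := c
  revert r
  refine forall4 ?_ ?_ ?_ ?_ <;> simp only [Ins, cpt_0, cpt_1, cpt_2, cpt_3]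
  · exact ⟨key _ v.1 (Or.inl rfl), key _ v.2 (Or.inl rfl)⟩
  · exact ⟨key _ v.1 (Or.inr rfl), key _ v.2 (Or.inl rfl)⟩
  · exact ⟨key _ v.1 (Or.inr rfl), key _ v.2 (Or.inr rfl)⟩
  · exact ⟨key _ v.1 (Or.inl rfl), key _ v.2 (Or.inr rfl)⟩

/-! ### The diagonal piece at the start -/

theorem bt_cpt {d : Medial} {z : ℂ} (h : z ∈ Bt d) : ∃ θ : ℝ, 1 / 4 ≤ θ ∧ θ ≤ 3 / 8 ∧
    z = cpt θ d := by
  obtain ⟨s, h0, h1, e1, e2⟩ := seg_coord h
  refine ⟨1 / 4 + s / 8, by linarith, by linarith, ?_⟩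
  apply Complex.ext
  · rw [e1, cpt_re, cpt_re, cpt_re]; ring
  · rw [e2, cpt_im, cpt_im, cpt_im]; ring

theorem cpt_dz {d : Medial} {θ : ℝ} (h0 : 0 ≤ θ) (h1 : θ ≤ 1 / 2) :
    dz (cpt θ d).re = θ ∧ dz (cpt θ d).im = θ := by
  have e1 : |θ - 1 / 2| = 1 / 2 - θ := by rw [abs_of_nonpos (by linarith)]; ring
  have e2 : |θ| = θ := abs_of_nonneg h0
  have h2 := qp_dz (c := d) (u := θ - 1 / 2) (t := θ) (by rw [e1]; linarith)
    (by rw [e2]; linarith)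
  rw [← cpt_qp] at h2
  have e3 : 1 / 2 - (1 / 2 - θ) = θ := by ring
  rw [e1, e2, e3] at h2
  rcases h2 with h2 | h2
  · exact h2
  · exact ⟨h2.2, h2.1⟩

theorem bt_dz {d : Medial} {z : ℂ} (h : z ∈ Bt d) : dz z.re = dz z.im ∧ 1 / 4 ≤ dz z.re ∧
    dz z.re ≤ 3 / 8 := by
  obtain ⟨θ, h0, h1, rfl⟩ := bt_cpt h
  obtain ⟨h2, h3⟩ := cpt_dz (d := d) (θ := θ) (by linarith) (by linarith)
  rw [h2, h3]
  exact ⟨rfl, h0, h1⟩

/-- the diagonal piece is in the face -/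
theorem cpt_face {θ : ℝ} (h0 : 0 < θ) (h1 : θ < 1) (d : Medial) :
    ((fc d).1 < (cpt θ d).re ∧ (cpt θ d).re < (fc d).1 + 1) ∧
      ((fc d).2 < (cpt θ d).im ∧ (cpt θ d).im < (fc d).2 + 1) := by
  obtain ⟨v, r⟩ := d
  revert r
  refine forall4 ?_ ?_ ?_ ?_ <;> simp only [fc_0, fc_1, fc_2, fc_3, cpt_0, cpt_1, cpt_2, cpt_3] <;>
    push_cast <;> refine ⟨⟨?_, ?_⟩, ?_, ?_⟩ <;> linarith

theorem face_unique {f g : ℤ × ℤ} {z : ℂ} (h1 : (f.1 : ℝ) < z.re ∧ z.re < f.1 + 1)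
    (h2 : (f.2 : ℝ) < z.im ∧ z.im < f.2 + 1) (h3 : (g.1 : ℝ) < z.re ∧ z.re < g.1 + 1)
    (h4 : (g.2 : ℝ) < z.im ∧ z.im < g.2 + 1) : f = g :=
  Prod.ext (int_of_bd (by linarith) (by linarith)) (int_of_bd (by linarith) (by linarith))

theorem bt_face {d : Medial} {f : ℤ × ℤ} {z : ℂ} (h : z ∈ Bt d)
    (h1 : (f.1 : ℝ) < z.re ∧ z.re < f.1 + 1) (h2 : (f.2 : ℝ) < z.im ∧ z.im < f.2 + 1) :
    fc d = f := by
  obtain ⟨θ, h3, h4, rfl⟩ := bt_cpt h
  obtain ⟨h5, h6⟩ := cpt_face (θ := θ) (by linarith) (by linarith) d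
  exact face_unique h5 h6 h1 h2

/-! ### The path -/

/-- The path up to the step `τ`, mesh `1`. -/
def Zt (p : ZMod n → ℤ × ℤ) (k : ℕ) (δ : ℝ) (A : Finset (Sym2 (ℤ × ℤ))) (τ : ℕ) : Set ℂ :=
  {z | (δ : ℂ) * z ∈ pl p k δ A '' Icc 0 ((τ : ℝ) + 1)}

/-- The domain minus the path, mesh `1`. -/
def Dt (S : Finset (ℤ × ℤ)) (p : ZMod n → ℤ × ℤ) (k : ℕ) (δ : ℝ) (A : Finset (Sym2 (ℤ × ℤ)))
    (τ : ℕ) : Set ℂ := O1 (S : Set (ℤ × ℤ)) \ Zt p k δ A τ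

/-- The steps of the past. -/
def Er (p : ZMod n → ℤ × ℤ) (k : ℕ) (A : Finset (Sym2 (ℤ × ℤ))) (τ : ℕ) (x y : Medial) : Prop :=
  ∃ l < τ, x = run p k A l ∧ y = run p k A (l + 1)

theorem er_step {τ : ℕ} {x y : Medial} (h : Er p k A τ x y) :
    (ahead x ∈ wiredOpen p k A ∧ y = adv x ∧ FStep (ahead x) x y) ∨
      (ahead x ∉ wiredOpen p k A ∧ y = rot x ∧ VStep (ahead x) x y) := by
  obtain ⟨l, -, rfl, rfl⟩ := h
  rw [run_succ]
  exact next_step _ _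

theorem er_F {τ : ℕ} {x y : Medial} (h : Er p k A τ x y) {e : Sym2 (ℤ × ℤ)} (hF : FStep e x y) :
    e ∈ wiredOpen p k A := by
  rcases er_step h with ⟨h1, h2, h3⟩ | ⟨h1, h2, h3⟩
  · rwa [FF_eq hF h3]
  · exact (not_VF h3 hF).elim

theorem er_V {τ : ℕ} {x y : Medial} (h : Er p k A τ x y) {e : Sym2 (ℤ × ℤ)} (hV : VStep e x y) :
    e ∉ wiredOpen p k A := by
  rcases er_step h with ⟨h1, h2, h3⟩ | ⟨h1, h2, h3⟩
  · exact (not_VF hV h3).elim
  · rwa [VV_eq hV h3]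

theorem obs {δ : ℝ} (hδ : 0 < δ) {τ : ℕ} (hτ : τ ≤ len p k A) :
    Obs (Zt p k δ A τ) (Er p k A τ) (fun d => d = cs p) (fun d => d = run p k A τ) where
  step := by
    intro x y h
    rcases er_step h with ⟨h1, h2, h3⟩ | ⟨h1, h2, h3⟩
    · exact ⟨_, Or.inr h3⟩
    · exact ⟨_, Or.inl h3⟩
  cov := by
    intro z hz
    rcases cov_pl hδ hτ hz with ⟨l, hl, h⟩ | h | h
    · exact Or.inl ⟨_, _, ⟨l, hl, rfl, rfl⟩, h⟩
    · exact Or.inr (Or.inl ⟨_, rfl, h⟩)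
    · exact Or.inr (Or.inr ⟨_, rfl, h⟩)

section pieces

variable {δ : ℝ} (hδ : 0 < δ) {τ : ℕ} (hτ : τ ≤ len p k A)
include hδ hτ

/-- the general lemma -/
theorem mem_Dt {z : ℂ} (hO : z ∈ O1 (S : Set (ℤ × ℤ))) (hE : ∀ x y, Er p k A τ x y → z ∉ Lseg x y)
    (hB : z ∉ Bt (cs p)) (hP : z ≠ cpt (1 / 4) (run p k A τ)) : z ∈ Dt S p k δ A τ := by
  refine ⟨hO, fun hz => ?_⟩
  rcases (obs hδ hτ).cov z hz with ⟨x, y, h1, h2⟩ | ⟨d, h1, h2⟩ | ⟨d, h1, h2⟩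
  · exact hE x y h1 h2
  · exact hB (h1 ▸ h2)
  · exact hP (h1 ▸ h2)

theorem ins_Dt {z : ℂ} (hO : z ∈ O1 (S : Set (ℤ × ℤ))) (hi : Ins z) (hB : z ∉ Bt (cs p)) :
    z ∈ Dt S p k δ A τ :=
  mem_Dt hδ hτ hO (fun x y h => by
    obtain ⟨e, he⟩ := (obs hδ hτ).step x y h
    exact ins_on hi he) hB (ins_ne hi _)

/-- half of an open edge -/
theorem sB {c : Medial} (he : ahead c ∈ edges S) (hc : ahead c ∈ wiredOpen p k A) {z : ℂ}
    (hz : z ∈ segment ℝ (pt c.1) (Fjord.em c)) : z ∈ Dt S p k δ A τ := by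
  obtain ⟨f, hf, hf'⟩ := face_of_edge he
  refine mem_Dt hδ hτ (seg_O1 hf ?_ ?_ hz) ?_ (pB_bt hz) ?_
  · rcases hf' with rfl | rfl <;> exact pt_EF _ _
  · rcases hf' with rfl | rfl
    exacts [(em_EF c).1, (em_EF c).2]
  · intro x y hxy hz'
    obtain ⟨e, he⟩ := (obs hδ hτ).step x y hxy
    rcases pB_on he hz hz' with ⟨rfl, rfl⟩ | ⟨rfl, rfl⟩
    exacts [er_V hxy (Or.inl ⟨rfl, rfl⟩) hc, er_V hxy (Or.inr ⟨rfl, rfl⟩) hc]
  · rintro rfl
    exact pB_bt hz (bt_self _)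

/-- half of a closed dual edge -/
theorem sA {c : Medial} (hf : fc c ∈ S) (hc : ahead c ∉ wiredOpen p k A) {z : ℂ}
    (hz : z ∈ segment ℝ (Fjord.em c) (ctr (fc c))) : z ∈ Dt S p k δ A τ := by
  refine mem_Dt hδ hτ (seg_O1 hf (em_EF c).1 (ctr_EF _) hz) ?_ (pA_bt hz) ?_
  · intro x y hxy hz'
    obtain ⟨e, he⟩ := (obs hδ hτ).step x y hxy
    rcases pA_on he hz hz' with ⟨rfl, rfl⟩ | ⟨rfl, rfl⟩
    exacts [hc (er_F hxy (Or.inl ⟨rfl, rfl⟩)), hc (er_F hxy (Or.inr ⟨rfl, rfl⟩))]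
  · rintro rfl
    exact pA_bt hz (bt_self _)

/-- the diagonal in the cell of a vertex -/
theorem sF {c : Medial} (hv : c.1 ∈ verts S) {θ : ℝ} (h0 : 0 ≤ θ) (h1 : θ < 1 / 4) :
    cpt θ c ∈ Dt S p k δ A τ := by
  obtain ⟨r, hr⟩ := mem_verts.1 hv
  refine ins_Dt hδ hτ (EF_sub hr (cpt_EF h0 (by linarith) c r)) (ins_cpt (Or.inl ⟨h0, h1⟩)) ?_
  intro hb
  have h2 := bt_dz hb
  rw [(cpt_dz h0 (by linarith)).1] at h2
  linarith

/-- the diagonal in the cell of a face -/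
theorem sD' (hp : IsPolygon p) (hS : Encloses p S) {c : Medial} (hf : fc c ∈ S) {θ : ℝ}
    (h0 : 1 / 4 < θ) (h1 : θ ≤ 1 / 2) : cpt θ c ∈ Dt S p k δ A τ := by
  obtain ⟨h2, h3⟩ := cpt_face (θ := θ) (by linarith) (by linarith) c
  refine ins_Dt hδ hτ (EF_sub hf ?_) (ins_cpt (Or.inr ⟨h0, h1⟩)) fun hb => ?_
  · exact ⟨⟨by linarith, by linarith⟩, by linarith, by linarith⟩
  · have h4 := bt_face hb h2 h3
    exact fc_cs hp hS (h4 ▸ hf)

omit hδ hτ in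
theorem qp0_EF {t : ℝ} (h0 : 0 ≤ t) (h1 : t < 3 / 8) (c : Medial) :
    qp c 0 t ∈ EF (face c.1 (c.2 + 1)) := by
  obtain ⟨v, r⟩ := c
  revert r
  refine forall4 ?_ ?_ ?_ ?_ <;>
    simp only [EF, f4_01, f4_11, f4_21, f4_31, face0, face1, face2, face3, qp, Fjord.em, adv_0,
      adv_1, adv_2, adv_3, dir0, dir1, dir2, dir3, mem_ofPred_eq] <;> push_cast <;>
    refine ⟨⟨?_, ?_⟩, ?_, ?_⟩ <;> linarith

omit hδ hτ in
theorem qp0_seg {t : ℝ} (h0 : 0 ≤ t) (h1 : t ≤ 1 / 2) (c : Medial) :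
    qp c 0 t ∈ segment ℝ (Fjord.em c) (ctr (fc c)) := by
  rw [segment_eq_image', em_qp, ctr_qp]
  refine ⟨2 * t, ⟨by linarith, by linarith⟩, ?_⟩
  apply Complex.ext <;> simp only [qp, Complex.add_re, Complex.add_im, Complex.real_smul,
    Complex.mul_re, Complex.mul_im, Complex.sub_re, Complex.sub_im, Complex.ofReal_re,
    Complex.ofReal_im] <;> ring

omit hδ hτ in
/-- The path does not go backwards. -/
theorem er_adv (c : Medial) : ¬ Er p k A τ (adv c) c := by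
  intro h
  rcases er_step h with ⟨-, h2, -⟩ | ⟨-, h2, -⟩
  · have h3 := congrArg Prod.snd h2
    simp only [adv] at h3
    generalize c.2 = r at h3
    revert r
    decide
  · exact adv_ne c (congrArg Prod.fst h2).symm

/-- The outward part of the normal of a polygon edge which is closed or not visited from
outside. -/
theorem sO {c : Medial} (he : ahead c ∈ edges S) (hf : fc c ∉ S) (hc : ¬ Er p k A τ c (adv c))
    {t : ℝ} (h0 : 0 ≤ t) (h1 : t < 3 / 8) : qp c 0 t ∈ Dt S p k δ A τ := by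
  have hi : face c.1 (c.2 + 1) ∈ S := by
    have h2 := (mem_edges (c.2 + 1)).1 he
    rw [fin4_2] at h2
    rcases h2 with h | h
    · exact h
    · exact absurd h hf
  have hz := qp0_seg h0 (by linarith) c
  refine mem_Dt hδ hτ (EF_sub hi (qp0_EF h0 h1 c)) ?_ (pA_bt hz) ?_
  · intro x y hxy hz'
    obtain ⟨e, he⟩ := (obs hδ hτ).step x y hxy
    rcases pA_on he hz hz' with ⟨rfl, rfl⟩ | ⟨rfl, rfl⟩
    exacts [hc hxy, er_adv _ hxy]
  · intro h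
    rw [h] at hz
    exact pA_bt hz (bt_self _)

/-- The end of the normal of a polygon edge. -/
theorem sQ {c : Medial} (he : ahead c ∈ edges S) (hf : fc c ∉ S) {t : ℝ} (h0 : 1 / 4 < t)
    (h1 : t < 3 / 8) : qp c 0 t ∈ Dt S p k δ A τ := by
  have hi : face c.1 (c.2 + 1) ∈ S := by
    have h2 := (mem_edges (c.2 + 1)).1 he
    rw [fin4_2] at h2
    rcases h2 with h | h
    · exact h
    · exact absurd h hf
  refine ins_Dt hδ hτ (EF_sub hi (qp0_EF (by linarith) h1 c)) ?_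
    (pA_bt (qp0_seg (by linarith) (by linarith) c))
  exact ins_qp (by rw [abs_zero]; norm_num) (Or.inr (by
    rw [abs_of_nonneg (by linarith)]
    exact ⟨h0, by linarith⟩))

/-- along the edge, on the outside -/
theorem sD {c : Medial} (he : ahead c ∈ edges S) (h1 : c ≠ cs p) (h2 : adv c ≠ cs p) {z : ℂ}
    (hz : z ∈ segment ℝ (cpt (5 / 16) c) (cpt (5 / 16) (adv c))) : z ∈ Dt S p k δ A τ := by
  obtain ⟨f, hf, hf'⟩ := face_of_edge he
  refine mem_Dt hδ hτ (seg_O1 hf ?_ ?_ hz) ?_ ?_ (c14_ne (Or.inl hz))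
  · rcases hf' with rfl | rfl <;> exact cpt_EF (by norm_num) (by norm_num) _ _
  · rcases hf' with rfl | rfl
    exacts [(cpt_adv_EF (by norm_num) (by norm_num) c).1,
      (cpt_adv_EF (by norm_num) (by norm_num) c).2]
  · intro x y hxy hz'
    obtain ⟨e, he⟩ := (obs hδ hτ).step x y hxy
    exact pD_on he hz hz'
  · intro hb
    rcases pD_bt hz hb with h | h
    exacts [h1 h.symm, h2 h.symm]

/-- around a vertex, across a closed edge -/
theorem sE {c : Medial} (hv : c.1 ∈ verts S) (hc : ahead c ∉ wiredOpen p k A) (h1 : c ≠ cs p)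
    (h2 : rot c ≠ cs p) {z : ℂ}
    (hz : z ∈ segment ℝ (cpt (5 / 16) c) (cpt (5 / 16) (rot c))) : z ∈ Dt S p k δ A τ := by
  obtain ⟨r, hr⟩ := mem_verts.1 hv
  refine mem_Dt hδ hτ (seg_O1 hr (cpt_EF (by norm_num) (by norm_num) _ _)
    (cpt_EF (by norm_num) (by norm_num) (rot c) _) hz) ?_ ?_ (c14_ne (Or.inr hz))
  · intro x y hxy hz'
    obtain ⟨e, he⟩ := (obs hδ hτ).step x y hxy
    exact hc (er_F hxy (pE_on he hz hz'))
  · intro hb
    rcases pE_bt hz hb with h | h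
    exacts [h1 h.symm, h2 h.symm]

/-- the diagonal outside of the cell of a vertex -/
theorem sT {c : Medial} (hv : c.1 ∈ verts S) (h1 : c ≠ cs p) {θ : ℝ} (h0 : 1 / 4 < θ)
    (h2 : θ < 3 / 8) : cpt θ c ∈ Dt S p k δ A τ := by
  obtain ⟨r, hr⟩ := mem_verts.1 hv
  refine ins_Dt hδ hτ (EF_sub hr (cpt_EF (by linarith) h2 _ _))
    (ins_cpt (Or.inr ⟨h0, by linarith⟩)) fun hb => ?_
  obtain ⟨θ', h3, h4, h5⟩ := bt_cpt hb
  exact h1 (cpt_inj (by linarith) (by linarith) (by linarith) h4 h5).1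

/-! ### Closed cells -/

omit hδ hτ in
/-- Points of a segment towards the centre of a box. -/
theorem seg_box {z a w : ℂ} {ρ : ℝ} (hρ : 0 < ρ) (h1 : |z.re - a.re| ≤ ρ) (h2 : |z.im - a.im| ≤ ρ)
    (hw : w ∈ segment ℝ z a) : w = z ∨ (|w.re - a.re| < ρ ∧ |w.im - a.im| < ρ) := by
  obtain ⟨s, h3, h4, e1, e2⟩ := seg_coord hw
  rcases h3.eq_or_lt with h3 | h3
  · left
    apply Complex.ext
    · rw [e1, ← h3]; ring
    · rw [e2, ← h3]; ring
  · right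
    have e3 : w.re - a.re = (1 - s) * (z.re - a.re) := by rw [e1]; ring
    have e4 : w.im - a.im = (1 - s) * (z.im - a.im) := by rw [e2]; ring
    rw [e3, e4, abs_mul, abs_mul, abs_of_nonneg (by linarith : (0 : ℝ) ≤ 1 - s)]
    constructor <;> nlinarith [abs_nonneg (z.re - a.re), abs_nonneg (z.im - a.im)]

/-- The cell of a vertex. -/
theorem cellV {v : ℤ × ℤ} (hv : v ∈ verts S) {z : ℂ} (hz : z ∈ Dt S p k δ A τ)
    (h1 : |z.re - v.1| ≤ 1 / 4) (h2 : |z.im - v.2| ≤ 1 / 4) {w : ℂ}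
    (hw : w ∈ segment ℝ z (pt v)) : w ∈ Dt S p k δ A τ := by
  rcases seg_box (ρ := 1 / 4) (by norm_num) h1 h2 hw with rfl | ⟨h3, h4⟩
  · exact hz
  · rw [pt_re] at h3
    rw [pt_im] at h4
    have h3' := abs_lt.1 h3
    have h4' := abs_lt.1 h4
    refine ins_Dt hδ hτ ?_ (ins_v h3 h4) fun hb => ?_
    · obtain ⟨r, hr⟩ := mem_verts.1 hv
      refine EF_sub hr ?_
      clear hr
      revert r
      refine forall4 ?_ ?_ ?_ ?_ <;> simp only [EF, face0, face1, face2, face3, mem_ofPred_eq] <;>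
        push_cast <;> refine ⟨⟨?_, ?_⟩, ?_, ?_⟩ <;> linarith
    · have h5 := bt_dz hb
      rw [dz_eq v.1 (by linarith)] at h5
      linarith

/-- The cell of a face. -/
theorem cellF (hp : IsPolygon p) (hS : Encloses p S) {f : ℤ × ℤ} (hf : f ∈ S) {z : ℂ}
    (hz : z ∈ Dt S p k δ A τ) (h1 : |z.re - (f.1 + 1 / 2)| ≤ 1 / 4)
    (h2 : |z.im - (f.2 + 1 / 2)| ≤ 1 / 4) {w : ℂ} (hw : w ∈ segment ℝ z (ctr f)) :
    w ∈ Dt S p k δ A τ := by
  rcases seg_box (a := ctr f) (ρ := 1 / 4) (by norm_num) h1 h2 hw with rfl | ⟨h3, h4⟩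
  · exact hz
  · have h3' := abs_lt.1 h3
    have h4' := abs_lt.1 h4
    simp only [ctr] at h3' h4'
    refine ins_Dt hδ hτ (EF_sub hf ?_) (ins_f h3 h4) fun hb => ?_
    · exact ⟨⟨by linarith, by linarith⟩, by linarith, by linarith⟩
    · have h5 := bt_face hb (f := f) ⟨by linarith, by linarith⟩ ⟨by linarith, by linarith⟩
      exact fc_cs hp hS (h5 ▸ hf)

/-- The cell of an edge. -/
theorem cellE {c : Medial} (he : ahead c ∈ edges S) {z : ℂ} (hz : z ∈ Dt S p k δ A τ)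
    (h1 : |z.re - (Fjord.em c).re| ≤ 1 / 4) (h2 : |z.im - (Fjord.em c).im| ≤ 1 / 4) {w : ℂ}
    (hw : w ∈ segment ℝ z (Fjord.em c)) : w ∈ Dt S p k δ A τ := by
  rcases seg_box (ρ := 1 / 4) (by norm_num) h1 h2 hw with rfl | ⟨h3, h4⟩
  · exact hz
  · obtain ⟨u, t, hu, ht, rfl⟩ : ∃ u t : ℝ, |u| < 1 / 4 ∧ |t| < 1 / 4 ∧ w = qp c u t := by
      clear he h1 h2 hw
      obtain ⟨v, r⟩ := c
      revert r
      refine forall4 ?_ ?_ ?_ ?_ <;> intro h3 h4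
      · refine ⟨w.im - (Fjord.em (v, 0)).im, w.re - (Fjord.em (v, 0)).re, h4, h3, ?_⟩
        apply Complex.ext <;> simp [qp, dir0, dir1, f4_01]
      · refine ⟨-(w.re - (Fjord.em (v, 1)).re), w.im - (Fjord.em (v, 1)).im, by rwa [abs_neg], h4,
          ?_⟩
        apply Complex.ext <;> simp [qp, dir1, dir2, f4_11]
      · refine ⟨-(w.im - (Fjord.em (v, 2)).im), -(w.re - (Fjord.em (v, 2)).re), by rwa [abs_neg],
          by rwa [abs_neg], ?_⟩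
        apply Complex.ext <;> simp [qp, dir2, dir3, f4_21]
      · refine ⟨w.re - (Fjord.em (v, 3)).re, -(w.im - (Fjord.em (v, 3)).im), h3, by rwa [abs_neg],
          ?_⟩
        apply Complex.ext <;> simp [qp, dir3, dir0, f4_31]
    refine ins_Dt hδ hτ ?_ (ins_qp hu (Or.inl ht)) fun hb => ?_
    · obtain ⟨f, hf, hf'⟩ := face_of_edge he
      refine EF_sub hf ?_
      rw [abs_lt] at hu ht
      clear hf he hz h1 h2 hw h3 h4
      obtain ⟨v, r⟩ := c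
      rcases hf' with rfl | rfl <;> revert r <;> refine forall4 ?_ ?_ ?_ ?_ <;>
        simp only [EF, f4_01, f4_11, f4_21, f4_31, face0, face1, face2, face3, qp, Fjord.em, adv_0,
          adv_1, adv_2, adv_3, dir0, dir1, dir2, dir3, mem_ofPred_eq] <;> push_cast <;>
        refine ⟨⟨?_, ?_⟩, ?_, ?_⟩ <;> linarith
    · have h5 := bt_dz hb
      rcases qp_dz (c := c) (u := u) (t := t) (by linarith) (by linarith) with h6 | h6
      · rw [h5.1] at h5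
        linarith [h5.2.1, h6.2]
      · linarith [h5.2.1, h6.2]

end pieces

end Vale.Agent.P167.H72
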