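import Vale.Agent.P167.H72.Tra
import Vale.Agent.P167.H634.CellDefs

/-!
# P167, block CG4 (LAB), part 7: the labels

`lab_left`, `lab_right`: a point of the left side `LO` (of the right side `RO`) of the path in the
domain minus the path is joined, in a set of diameter at most `3 δ`, to a boundary point whose limit
under `g_t` is at most (at least) the driver.
-/

set_option linter.unusedSimpArgs false
set_option linter.unusedVariables false
set_option linter.unusedSectionVars false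

open Set Metric Filter Topology

namespace Vale.Agent.P167.H72

open Vale.Agent.P167.E6 Vale.Agent.P167.E2 Vale.Agent.P167.Fjord
open Vale.Agent.P153.R2.R1 (IsU)
open Vale.Agent.P153.R2.L1 (HH)
open Vale.Agent.P153.R2.L2 (Crv gg ww)
open Vale.Agent.P167.H634 (RO LO RX VB FB EB Dm Bx)

variable {n : ℕ} {p : ZMod n → ℤ × ℤ} {S : Finset (ℤ × ℤ)} {k : ℕ} {A : Finset (Sym2 (ℤ × ℤ))}

theorem jin {X : Set ℂ} {v : ℤ × ℤ} {a b : ℂ} (h : segment ℝ a b ⊆ X) (ha : a ∈ Bxo v)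
    (hb : b ∈ Bxo v) : JoinedIn (X ∩ Bxo v) a b :=
  ends_in fun z hz => ⟨h hz, (convex_Bxo v).segment_subset ha hb hz⟩

theorem qp0_Bxo' {t : ℝ} (h0 : 0 ≤ t) (h1 : t < 1) (c : Medial) : qp c 0 t ∈ Bxo (adv c).1 := by
  obtain ⟨v, r⟩ := c
  revert r
  refine forall4 ?_ ?_ ?_ ?_ <;>
    simp only [Bxo, f4_01, f4_11, f4_21, f4_31, qp, Fjord.em, adv_0,
      adv_1, adv_2, adv_3, dir0, dir1, dir2, dir3, mem_ofPred_eq] <;> push_cast <;>
    refine ⟨⟨?_, ?_⟩, ?_, ?_⟩ <;> linarith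

theorem qp_Bxo {u t : ℝ} (hu : |u| < 1 / 2) (ht : |t| < 1) (c : Medial) : qp c u t ∈ Bxo c.1 := by
  rw [abs_lt] at hu ht
  obtain ⟨v, r⟩ := c
  revert r
  refine forall4 ?_ ?_ ?_ ?_ <;>
    simp only [Bxo, f4_01, f4_11, f4_21, f4_31, qp, Fjord.em, adv_0,
      adv_1, adv_2, adv_3, dir0, dir1, dir2, dir3, mem_ofPred_eq] <;> push_cast <;>
    refine ⟨⟨?_, ?_⟩, ?_, ?_⟩ <;> linarith

theorem eb_Bxo {z : ℂ} {c : Medial} (h1 : |z.re - (Fjord.em c).re| ≤ 1 / 4)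
    (h2 : |z.im - (Fjord.em c).im| ≤ 1 / 4) : z ∈ Bxo c.1 := by
  rw [abs_le] at h1 h2
  obtain ⟨v, r⟩ := c
  revert r
  refine forall4 ?_ ?_ ?_ ?_ <;>
    simp only [Bxo, Fjord.em, adv_0, adv_1, adv_2, adv_3, mem_ofPred_eq] <;> push_cast <;>
    rintro ⟨h1, h2⟩ ⟨h3, h4⟩ <;>
    refine ⟨⟨?_, ?_⟩, ?_, ?_⟩ <;> linarith

theorem fb_Bxo {z : ℂ} {c : Medial} (h1 : |z.re - ((fc c).1 + 1 / 2)| ≤ 1 / 4)
    (h2 : |z.im - ((fc c).2 + 1 / 2)| ≤ 1 / 4) : z ∈ Bxo c.1 := by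
  rw [abs_le] at h1 h2
  obtain ⟨v, r⟩ := c
  revert r
  refine forall4 ?_ ?_ ?_ ?_ <;>
    simp only [Bxo, fc_0, fc_1, fc_2, fc_3, mem_ofPred_eq] <;> push_cast <;>
    rintro ⟨h1, h2⟩ ⟨h3, h4⟩ <;>
    refine ⟨⟨?_, ?_⟩, ?_, ?_⟩ <;> linarith

theorem qp_surj (c : Medial) (z : ℂ) : ∃ u t : ℝ, z = qp c u t := by
  obtain ⟨v, r⟩ := c
  revert r
  refine forall4 ?_ ?_ ?_ ?_
  · refine ⟨z.im - (Fjord.em (v, 0)).im, z.re - (Fjord.em (v, 0)).re, ?_⟩
    apply Complex.ext <;> simp [qp, dir0, dir1, f4_01]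
  · refine ⟨-(z.re - (Fjord.em (v, 1)).re), z.im - (Fjord.em (v, 1)).im, ?_⟩
    apply Complex.ext <;> simp [qp, dir1, dir2, f4_11]
  · refine ⟨-(z.im - (Fjord.em (v, 2)).im), -(z.re - (Fjord.em (v, 2)).re), ?_⟩
    apply Complex.ext <;> simp [qp, dir2, dir3, f4_21]
  · refine ⟨z.re - (Fjord.em (v, 3)).re, -(z.im - (Fjord.em (v, 3)).im), ?_⟩
    apply Complex.ext <;> simp [qp, dir3, dir0, f4_31]

theorem qp_abs (c : Medial) (u t : ℝ) :
    |(qp c u t).re - (Fjord.em c).re| + |(qp c u t).im - (Fjord.em c).im| = |u| + |t| := by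
  obtain ⟨v, r⟩ := c
  revert r
  refine forall4 ?_ ?_ ?_ ?_ <;>
    simp only [qp, dir0, dir1, dir2, dir3, f4_01, f4_11, f4_21, f4_31, Int.cast_one, Int.cast_zero,
      Int.cast_neg, mul_one, mul_zero, mul_neg, add_zero, add_sub_cancel_left, abs_neg] <;> ring

/-- Points of the inner face of an edge. -/
theorem qp_in {u t : ℝ} (hu : |u| ≤ 1 / 2) (h1 : -1 ≤ t) (h2 : t ≤ 0) (c : Medial) :
    (((face c.1 (c.2 + 1)).1 : ℝ) ≤ (qp c u t).re ∧ (qp c u t).re ≤ (face c.1 (c.2 + 1)).1 + 1) ∧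
    (((face c.1 (c.2 + 1)).2 : ℝ) ≤ (qp c u t).im ∧ (qp c u t).im ≤ (face c.1 (c.2 + 1)).2 + 1) := by
  rw [abs_le] at hu
  obtain ⟨v, r⟩ := c
  revert r
  refine forall4 ?_ ?_ ?_ ?_ <;>
    simp only [f4_01, f4_11, f4_21, f4_31, face0, face1, face2, face3, qp, Fjord.em, adv_0,
      adv_1, adv_2, adv_3, dir0, dir1, dir2, dir3] <;> push_cast <;>
    refine ⟨⟨?_, ?_⟩, ?_, ?_⟩ <;> linarith

/-- Points of the outer face of an edge. -/
theorem qp_out {u t : ℝ} (hu : |u| ≤ 1 / 2) (h1 : 0 ≤ t) (h2 : t ≤ 1) (c : Medial) :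
    (((fc c).1 : ℝ) ≤ (qp c u t).re ∧ (qp c u t).re ≤ (fc c).1 + 1) ∧
    (((fc c).2 : ℝ) ≤ (qp c u t).im ∧ (qp c u t).im ≤ (fc c).2 + 1) := by
  rw [abs_le] at hu
  obtain ⟨v, r⟩ := c
  revert r
  refine forall4 ?_ ?_ ?_ ?_ <;>
    simp only [f4_01, f4_11, f4_21, f4_31, fc_0, fc_1, fc_2, fc_3, qp, Fjord.em, adv_0,
      adv_1, adv_2, adv_3, dir0, dir1, dir2, dir3] <;> push_cast <;>
    refine ⟨⟨?_, ?_⟩, ?_, ?_⟩ <;> linarith

/-- The middle of the outer face. -/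
theorem qp_mid {u t : ℝ} (hu : |u| ≤ 1 / 8) (h1 : 3 / 8 ≤ t) (h2 : t ≤ 1 / 2) (c : Medial) :
    (((fc c).1 : ℝ) + 3 / 8 ≤ (qp c u t).re ∧ (qp c u t).re ≤ (fc c).1 + 5 / 8) ∧
    (((fc c).2 : ℝ) + 3 / 8 ≤ (qp c u t).im ∧ (qp c u t).im ≤ (fc c).2 + 5 / 8) := by
  rw [abs_le] at hu
  obtain ⟨v, r⟩ := c
  revert r
  refine forall4 ?_ ?_ ?_ ?_ <;>
    simp only [f4_01, f4_11, f4_21, f4_31, fc_0, fc_1, fc_2, fc_3, qp, Fjord.em, adv_0,
      adv_1, adv_2, adv_3, dir0, dir1, dir2, dir3] <;> push_cast <;>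
    refine ⟨⟨?_, ?_⟩, ?_, ?_⟩ <;> linarith

theorem qp_EF {u t : ℝ} (hu : |u| ≤ 1 / 2) (h0 : 0 ≤ t) (h1 : t < 3 / 8) (c : Medial) :
    qp c u t ∈ EF (face c.1 (c.2 + 1)) := by
  rw [abs_le] at hu
  obtain ⟨v, r⟩ := c
  revert r
  refine forall4 ?_ ?_ ?_ ?_ <;>
    simp only [EF, f4_01, f4_11, f4_21, f4_31, face0, face1, face2, face3, qp, Fjord.em, adv_0,
      adv_1, adv_2, adv_3, dir0, dir1, dir2, dir3, mem_ofPred_eq] <;> push_cast <;>
    refine ⟨⟨?_, ?_⟩, ?_, ?_⟩ <;> linarith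

/-- The difference of two points in the direction of the normal. -/
theorem qp_sub (c : Medial) (u t t' : ℝ) : |(qp c u t).re - (qp c u t').re| ≤ |t - t'| ∧
    |(qp c u t).im - (qp c u t').im| ≤ |t - t'| := by
  obtain ⟨v, r⟩ := c
  have h := abs_nonneg (t - t')
  have e : |t' - t| = |t - t'| := abs_sub_comm _ _
  revert r
  refine forall4 ?_ ?_ ?_ ?_ <;>
    simp only [qp, dir0, dir1, dir2, dir3, f4_01, f4_11, f4_21, f4_31, Int.cast_one, Int.cast_zero,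
      Int.cast_neg, mul_one, mul_zero, mul_neg, add_zero, add_sub_add_left_eq_sub, sub_self,
      abs_zero, neg_sub_neg] <;>
    exact ⟨by linarith, by linarith⟩

/-- The closed box of radius `3/8`. -/
theorem vb_cases {v : ℤ × ℤ} {z : ℂ} (h1 : |z.re - v.1| ≤ 3 / 8) (h2 : |z.im - v.2| ≤ 3 / 8)
    (h3 : 1 / 4 ≤ |z.re - v.1| ∨ 1 / 4 ≤ |z.im - v.2|) :
    ∃ (r : Fin 4) (a b : ℝ), z = qp (v, r) (b - 1 / 2) a ∧ 1 / 4 ≤ b ∧ b ≤ 3 / 8 ∧
      (|a| < 1 / 4 ∨ (1 / 4 ≤ a ∧ a ≤ 3 / 8)) := by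
  have e0 : z = qp (v, 0) ((z.im - v.2) - 1 / 2) (z.re - v.1) := by
    apply Complex.ext <;> simp only [qp, Fjord.em, adv_0, dir0, dir1, f4_01] <;> push_cast <;> ring
  have e1 : z = qp (v, 1) (-(z.re - v.1) - 1 / 2) (z.im - v.2) := by
    apply Complex.ext <;> simp only [qp, Fjord.em, adv_1, dir1, dir2, f4_11] <;> push_cast <;> ring
  have e2 : z = qp (v, 2) (-(z.im - v.2) - 1 / 2) (-(z.re - v.1)) := by
    apply Complex.ext <;> simp only [qp, Fjord.em, adv_2, dir2, dir3, f4_21] <;> push_cast <;> ring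
  have e3 : z = qp (v, 3) ((z.re - v.1) - 1 / 2) (-(z.im - v.2)) := by
    apply Complex.ext <;> simp only [qp, Fjord.em, adv_3, dir3, dir0, f4_31] <;> push_cast <;> ring
  generalize z.re - v.1 = x at h1 h3 e0 e1 e2 e3
  generalize z.im - v.2 = y at h2 h3 e0 e1 e2 e3
  rw [abs_le] at h1 h2
  by_cases hx : |x| < 1 / 4
  · have hy : 1 / 4 ≤ |y| := by
      rcases h3 with h | h
      · linarith
      · exact h
    rcases le_abs.1 hy with hy | hy
    · exact ⟨0, x, y, e0, hy, h2.2, Or.inl hx⟩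
    · exact ⟨2, -x, -y, e2, hy, by linarith, Or.inl (by rwa [abs_neg])⟩
  · rw [not_lt] at hx
    by_cases hy : |y| < 1 / 4
    · rcases le_abs.1 hx with hx | hx
      · exact ⟨3, -y, x, e3, hx, h1.2, Or.inl (by rwa [abs_neg])⟩
      · exact ⟨1, y, -x, e1, hx, by linarith, Or.inl hy⟩
    · rw [not_lt] at hy
      rcases le_abs.1 hx with hx | hx <;> rcases le_abs.1 hy with hy | hy
      · exact ⟨0, x, y, e0, hy, h2.2, Or.inr ⟨hx, h1.2⟩⟩
      · exact ⟨3, -y, x, e3, hx, h1.2, Or.inr ⟨hy, by linarith⟩⟩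
      · exact ⟨1, y, -x, e1, hx, by linarith, Or.inr ⟨hy, h2.2⟩⟩
      · exact ⟨2, -x, -y, e2, hy, by linarith, Or.inr ⟨hx, by linarith⟩⟩

/-- Coordinates relative to the vertex. -/
theorem qp_vert {a b : ℝ} (v : ℤ × ℤ) (r : Fin 4) (ha : |a| < 3 / 8) (hb : |b| < 3 / 8) :
    |(qp (v, r) (b - 1 / 2) a).re - v.1| < 3 / 8 ∧ |(qp (v, r) (b - 1 / 2) a).im - v.2| < 3 / 8 := by
  rw [abs_lt] at ha hb
  simp only [abs_lt]
  revert r
  refine forall4 ?_ ?_ ?_ ?_ <;>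
    simp only [f4_01, f4_11, f4_21, f4_31, qp, Fjord.em, adv_0,
      adv_1, adv_2, adv_3, dir0, dir1, dir2, dir3] <;> push_cast <;>
    refine ⟨⟨?_, ?_⟩, ?_, ?_⟩ <;> linarith

theorem box_O1 {S : Finset (ℤ × ℤ)} {v : ℤ × ℤ} (hv : v ∈ verts S) {z : ℂ}
    (h1 : |z.re - v.1| < 3 / 8) (h2 : |z.im - v.2| < 3 / 8) : z ∈ O1 (S : Set (ℤ × ℤ)) := by
  obtain ⟨r, hr⟩ := mem_verts.1 hv
  refine EF_sub hr ?_
  clear hr hv
  rw [abs_lt] at h1 h2
  revert r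
  refine forall4 ?_ ?_ ?_ ?_ <;> simp only [EF, face0, face1, face2, face3, mem_ofPred_eq] <;>
    push_cast <;> refine ⟨⟨?_, ?_⟩, ?_, ?_⟩ <;> linarith

theorem cpt_near {θ : ℝ} (h0 : 0 ≤ θ) (h1 : θ ≤ 3 / 8) (c : Medial) :
    |(cpt θ c).re - c.1.1| ≤ 3 / 8 ∧ |(cpt θ c).im - c.1.2| ≤ 3 / 8 := by
  simp only [abs_le]
  obtain ⟨v, r⟩ := c
  revert r
  refine forall4 ?_ ?_ ?_ ?_ <;> simp only [cpt_0, cpt_1, cpt_2, cpt_3] <;>
    refine ⟨⟨?_, ?_⟩, ?_, ?_⟩ <;> linarith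

theorem vert_unique {v w : ℤ × ℤ} {z : ℂ} (h1 : |z.re - v.1| < 3 / 8) (h2 : |z.im - v.2| < 3 / 8)
    (h3 : |z.re - w.1| ≤ 3 / 8) (h4 : |z.im - w.2| ≤ 3 / 8) : w = v := by
  rw [abs_lt] at h1 h2
  rw [abs_le] at h3 h4
  apply Prod.ext <;> refine le_antisymm (Int.le_of_lt_add_one ?_) (Int.le_of_lt_add_one ?_)
  · have : (w.1 : ℝ) < v.1 + 1 := by linarith
    exact_mod_cast this
  · have : (v.1 : ℝ) < w.1 + 1 := by linarith
    exact_mod_cast this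
  · have : (w.2 : ℝ) < v.2 + 1 := by linarith
    exact_mod_cast this
  · have : (v.2 : ℝ) < w.2 + 1 := by linarith
    exact_mod_cast this

theorem dist_Bxo {v : ℤ × ℤ} {x y : ℂ} (hx : x ∈ Bxo v) (hy : y ∈ Bxo v) : dist x y ≤ 3 := by
  obtain ⟨⟨x1, x2⟩, x3, x4⟩ := hx
  obtain ⟨⟨y1, y2⟩, y3, y4⟩ := hy
  rw [dist_eq_norm]
  refine abs_le_of_sq_le_sq' ?_ (by norm_num) |>.2
  rw [Complex.sq_norm, Complex.normSq_apply, Complex.sub_re, Complex.sub_im]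
  have h1 : |x.re - y.re| ≤ 2 := abs_le.2 ⟨by linarith, by linarith⟩
  have h2 : |x.im - y.im| ≤ 2 := abs_le.2 ⟨by linarith, by linarith⟩
  have h3 := sq_le_sq' (abs_le.1 h1).1 (abs_le.1 h1).2
  have h4 := sq_le_sq' (abs_le.1 h2).1 (abs_le.1 h2).2
  nlinarith

section lab

variable (hp : IsPolygon p) (hS : Encloses p S) (h0k : 0 < k) (hk : k + 1 < n)
  (hA : A ⊆ edges S) {δ : ℝ} (hδ : 0 < δ) {τ : ℕ} (hτ : τ ≤ len p k A)
  {ψ : ℂ → ℂ} (hU : IsU ψ (Om δ S) (aM p δ) (bM p k δ))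

/-- The conclusion: `w` is joined to the boundary point with limit `a`. -/
def Lds (p : ZMod n → ℤ × ℤ) (k : ℕ) (δ : ℝ) (S : Finset (ℤ × ℤ)) (ψ : ℂ → ℂ)
    (A : Finset (Sym2 (ℤ × ℤ))) (τ : ℕ) (w : ℂ) (a : ℝ) : Prop :=
  ∃ T ⊆ Hm p k δ S ψ A τ, IsPreconnected T ∧ w ∈ T ∧
    (∀ x ∈ T, ∀ y ∈ T, dist (ψ x) (ψ y) ≤ 3 * δ) ∧
    (a : ℂ) ∈ closure (gg (gam p k δ S ψ A) ((τ : ℝ) + 1) '' T)

include hp hS hk hA hδ hτ hU

theorem fin_of {w z : ℂ} {v : ℤ × ℤ} {β : ℝ → ℂ} {U : Set ℂ} {a : ℝ}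
    (hw : Ph ψ δ z = w) (hj : JoinedIn (Dt S p k δ A τ ∩ Bxo v) z (β 1)) (hβ : Continuous β)
    (hβ2 : ∀ s ∈ Ioc (0 : ℝ) 1, β s ∈ Dt S p k δ A τ ∩ Bxo v)
    (hl : Land (gg (gam p k δ S ψ A) ((τ : ℝ) + 1)) U (fun s => Ph ψ δ (β s)) a) :
    Lds p k δ S ψ A τ w a := by
  obtain ⟨P, hP⟩ := hj
  set C : Set ℂ := range P ∪ β '' Ioc 0 1 with hC
  have hCs : C ⊆ Dt S p k δ A τ ∩ Bxo v := by
    rintro x (⟨s, rfl⟩ | ⟨s, hs, rfl⟩)
    exacts [hP s, hβ2 s hs]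
  have hCc : IsPreconnected C := by
    refine IsPreconnected.union (β 1) ⟨1, P.target⟩ ⟨1, ⟨one_pos, le_rfl⟩, rfl⟩
      (isPreconnected_range P.continuous) ?_
    exact isPreconnected_Ioc.image _ hβ.continuousOn
  have hCD : C ⊆ Dt S p k δ A τ := fun x hx => (hCs hx).1
  refine ⟨Ph ψ δ '' C, sub_Hm hp hS hk hA hδ hτ hU hCD,
    hCc.image _ ((ph_cont' hp hS hk hA hδ hτ hU).mono hCD), ⟨z, Or.inl ⟨0, P.source⟩, hw⟩, ?_, ?_⟩
  · rintro _ ⟨x, hx, rfl⟩ _ ⟨y, hy, rfl⟩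
    rw [(ph_Dt hp hS hk hA hδ hτ hU (hCD hx)).2, (ph_Dt hp hS hk hA hδ hτ hU (hCD hy)).2,
      dist_eq_norm, ← mul_sub, norm_mul, Complex.norm_real, Real.norm_eq_abs, abs_of_pos hδ,
      ← dist_eq_norm, mul_comm]
    exact mul_le_mul_of_nonneg_right (dist_Bxo (hCs hx).2 (hCs hy).2) hδ.le
  · refine closure_mono (image_mono ?_) hl.mem_closure
    rintro _ ⟨s, hs, rfl⟩
    exact ⟨_, Or.inr ⟨s, hs, rfl⟩, rfl⟩

include h0k

omit hk hA hτ hU hp hS h0k in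
theorem bx_iff {z : ℂ} {ρ x y : ℝ} : (δ : ℂ) * z ∈ Bx δ ρ x y ↔ |z.re - x| ≤ ρ ∧ |z.im - y| ≤ ρ := by
  have e : ∀ a b : ℝ, |δ * a - δ * b| = δ * |a - b| := fun a b => by
    rw [← mul_sub, abs_mul, abs_of_pos hδ]
  simp only [Bx, mem_ofPred_eq, Complex.re_ofReal_mul, Complex.im_ofReal_mul, e]
  rw [mul_le_mul_iff_right₀ hδ, mul_le_mul_iff_right₀ hδ]

/-- In the cell of a visited vertex. -/
theorem lab_v {w z : ℂ} (hz : z ∈ Dt S p k δ A τ) (hw : Ph ψ δ z = w) {i : ℕ} (hi : i ≤ τ)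
    (hj : JoinedIn (Dt S p k δ A τ ∩ Bxo (run p k A i).1) z (pt (run p k A i).1)) :
    ∃ a ≤ ww (gam p k δ S ψ A) ((τ : ℝ) + 1), Lds p k δ S ψ A τ w a := by
  obtain ⟨a, ha, hl⟩ := left_land hp hS h0k hk hA hδ hτ hU hi
  refine ⟨a, ha, fin_of hp hS hk hA hδ hτ hU (v := (run p k A i).1) hw ?_ (cont_bl _) ?_ hl⟩
  · rwa [bl_one]
  · intro s hs
    exact ⟨(lnd_l hp hS h0k hk hA hδ hτ (run_mem hp hS hA i)).mem s hs |>.1,
      cpt_Bxo (by linarith [hs.1, hs.2]) (by linarith [hs.1, hs.2]) _⟩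

/-- At a wired edge. -/
theorem lab_w {w z : ℂ} (hw : Ph ψ δ z = w) {i : ℕ} (h1 : k ≤ i) (h2 : i + 1 < n) {v : ℤ × ℤ}
    (hv : ∀ t : ℝ, 0 ≤ t → t < 3 / 8 → qp (od p (i : ZMod n)) 0 t ∈ Bxo v)
    (hj : JoinedIn (Dt S p k δ A τ ∩ Bxo v) z (Fjord.em (od p (i : ZMod n)))) :
    ∃ a ≤ ww (gam p k δ S ψ A) ((τ : ℝ) + 1), Lds p k δ S ψ A τ w a := by
  obtain ⟨a, ha, hl⟩ := wired_land hp hS h0k hk hA hδ hτ hU h1 h2
  refine ⟨a, ha, fin_of hp hS hk hA hδ hτ hU (v := v) hw (hj.trans ?_) (cont_bn _) ?_ hl⟩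
  · rw [bn_one, em_qp, qo_qp]
    exact qp_joined hp hS h0k hk hA hδ hτ (by norm_num) fun t h4 h5 =>
      ⟨(lw hp hS h0k hk hA hδ hτ h1 h2 h4 (by linarith)).1, hv t h4 (by linarith)⟩
  · intro s hs
    exact ⟨(lnd_w hp hS h0k hk hA hδ hτ h1 h2).mem s hs |>.1,
      hv _ (by linarith [hs.1, hs.2]) (by linarith [hs.1, hs.2])⟩

omit hk hA hτ hU hp hS h0k hδ in
theorem em_co (c : Medial) : (Fjord.em c).re = ((c.1.1 : ℝ) + (c.1 + dir (c.2 + 1)).1) / 2 ∧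
    (Fjord.em c).im = ((c.1.2 : ℝ) + (c.1 + dir (c.2 + 1)).2) / 2 := ⟨rfl, rfl⟩

/-- **Labels on the left.** -/
theorem lab_left {w : ℂ} (hw : w ∈ Hm p k δ S ψ A τ) (hL : ψ w ∈ LO p k A δ τ) :
    ∃ a ≤ ww (gam p k δ S ψ A) ((τ : ℝ) + 1), Lds p k δ S ψ A τ w a := by
  obtain ⟨z, hz, hzw, hPz⟩ := img_Dt hp hS hk hA hδ hτ hU hw
  rw [← hzw] at hL
  have hn : n ≠ 0 := by omega
  rcases hL with ⟨i, hi, h⟩ | ⟨i, h1, h2, h⟩ | ⟨i, hi, hc, h⟩ | ⟨i, h1, h2, h⟩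
  · obtain ⟨h3, h4⟩ := (bx_iff hδ).1 h
    refine lab_v hp hS h0k hk hA hδ hτ hU hz hPz hi (jin (fun x hx => ?_) ?_ ?_)
    · exact cellV hδ hτ (run_mem hp hS hA i) hz h3 h4 hx
    · rw [abs_le] at h3 h4
      exact ⟨⟨by linarith, by linarith⟩, by linarith, by linarith⟩
    · rw [← bl_one (run p k A i)]
      exact cpt_Bxo (by norm_num) (by norm_num) _
  · obtain ⟨h3, h4⟩ := (bx_iff hδ).1 h
    have hzB : z ∈ Bxo (p (i : ZMod n)) := by
      rw [abs_le] at h3 h4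
      exact ⟨⟨by linarith, by linarith⟩, by linarith, by linarith⟩
    have hpB : pt (p (i : ZMod n)) ∈ Bxo (p (i : ZMod n)) := by
      have := cpt_Bxo (θ := 0) le_rfl (by norm_num) (p (i : ZMod n), 0)
      have e : cpt 0 (p (i : ZMod n), 0) = pt (p (i : ZMod n)) := by
        apply Complex.ext
        · rw [cpt_re]; norm_num
        · rw [cpt_im]; norm_num
      rwa [e] at this
    have j1 : JoinedIn (Dt S p k δ A τ ∩ Bxo (p (i : ZMod n))) z (pt (p (i : ZMod n))) :=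
      jin (fun x hx => cellV hδ hτ (p_mem_verts hp hS _) hz h3 h4 hx) hzB hpB
    rcases (show i + 1 < n ∨ i + 1 = n by omega) with h5 | h5
    · refine lab_w hp hS h0k hk hA hδ hτ hU hPz h1 h5 (v := p (i : ZMod n))
        (fun t h6 h7 => qp0_Bxo h6 (by linarith) (od p (i : ZMod n))) (j1.trans ?_)
      have hw : ahead (od p (i : ZMod n)) ∈ wiredOpen p k A := by
        rw [ahead_od hp]
        exact Or.inr ⟨i, h1, h5, rfl⟩
      refine jin (a := pt (od p (i : ZMod n)).1) (fun x hx => sB hδ hτ (od_edge hp hS _) hw hx) hpB ?_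
      rw [em_qp]
      exact qp0_Bxo le_rfl (by norm_num) (od p (i : ZMod n))
    · have hkn : k ≤ n - 2 := by omega
      have e1 : (((n - 2 : ℕ) : ZMod n)) + 1 = (i : ZMod n) := by
        have e0 : n - 2 + 1 = i := by omega
        rw [← e0]
        push_cast
        rfl
      have e2 : (adv (od p ((n - 2 : ℕ) : ZMod n))).1 = p (i : ZMod n) := by
        rw [adv_od hp, e1]
      refine lab_w hp hS h0k hk hA hδ hτ hU hPz hkn (by omega) (v := p (i : ZMod n))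
        (fun t h6 h7 => ?_) (j1.trans ?_)
      · have := qp0_Bxo' h6 (by linarith : t < 1) (od p ((n - 2 : ℕ) : ZMod n))
        rwa [e2] at this
      · have hw : ahead (od p ((n - 2 : ℕ) : ZMod n)) ∈ wiredOpen p k A := by
          rw [ahead_od hp]
          exact Or.inr ⟨n - 2, hkn, by omega, rfl⟩
        have hw' : ahead (par (od p ((n - 2 : ℕ) : ZMod n))) ∈ wiredOpen p k A := by
          rwa [ahead_par]
        have he' : ahead (par (od p ((n - 2 : ℕ) : ZMod n))) ∈ edges S := wired_sub hp hS hA hw'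
        have e3 : (par (od p ((n - 2 : ℕ) : ZMod n))).1 = p (i : ZMod n) := e2
        rw [← em_congr (ahead_par (od p ((n - 2 : ℕ) : ZMod n))), ← e3]
        refine jin (fun x hx => sB hδ hτ he' hw' hx) ?_ ?_
        · rw [e3]
          exact hpB
        · rw [em_congr (ahead_par _), em_qp]
          exact qp0_Bxo' le_rfl (by norm_num) (od p ((n - 2 : ℕ) : ZMod n))
  · have he := wired_sub hp hS hA hc
    obtain ⟨h3, h4⟩ := (bx_iff hδ).1 h
    have e := em_co (run p k A i)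
    rw [← e.1] at h3
    rw [← e.2] at h4
    have hB : Fjord.em (run p k A i) ∈ Bxo (run p k A i).1 := by
      rw [em_qp]; exact qp0_Bxo le_rfl (by norm_num) _
    have j1 : JoinedIn (Dt S p k δ A τ ∩ Bxo (run p k A i).1) z (Fjord.em (run p k A i)) :=
      jin (fun x hx => cellE hδ hτ he hz h3 h4 hx) (eb_Bxo h3 h4) hB
    have hpB : pt (run p k A i).1 ∈ Bxo (run p k A i).1 := by
      rw [← bl_one (run p k A i)]
      exact cpt_Bxo (by norm_num) (by norm_num) _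
    refine lab_v hp hS h0k hk hA hδ hτ hU hz hPz hi.le (j1.trans (JoinedIn.symm ?_))
    exact jin (fun x hx => sB hδ hτ he hc hx) hpB hB
  · obtain ⟨h3, h4⟩ := (bx_iff hδ).1 h
    have e := em_co (od p (i : ZMod n))
    have e2 : (od p (i : ZMod n)).1 = p (i : ZMod n) := rfl
    have e3 : (od p (i : ZMod n)).1 + dir ((od p (i : ZMod n)).2 + 1) = p ((i : ZMod n) + 1) := by
      have := adv_od hp (i : ZMod n)
      exact congrArg Prod.fst this
    rw [e3, e2] at e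
    rw [← e.1] at h3
    rw [← e.2] at h4
    have hB : Fjord.em (od p (i : ZMod n)) ∈ Bxo (p (i : ZMod n)) := by
      rw [em_qp]; exact qp0_Bxo le_rfl (by norm_num) (od p (i : ZMod n))
    have hzB : z ∈ Bxo (p (i : ZMod n)) := eb_Bxo (c := od p (i : ZMod n)) h3 h4
    exact lab_w hp hS h0k hk hA hδ hτ hU hPz h1 h2 (v := p (i : ZMod n))
      (fun t h6 h7 => qp0_Bxo h6 (by linarith) (od p (i : ZMod n)))
      (jin (fun x hx => cellE hδ hτ (od_edge hp hS _) hz h3 h4 hx) hzB hB)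

/-! ### The right side -/

/-- At the corner of a visited face. -/
theorem lab_f {w z : ℂ} (hw : Ph ψ δ z = w) {i : ℕ} (hi : i ≤ τ) (hf : fc (run p k A i) ∈ S)
    (hj : JoinedIn (Dt S p k δ A τ ∩ Bxo (run p k A i).1) z (ctr (fc (run p k A i)))) :
    ∃ b, ww (gam p k δ S ψ A) ((τ : ℝ) + 1) ≤ b ∧ Lds p k δ S ψ A τ w b := by
  obtain ⟨b, hb, hl⟩ := right_land hp hS h0k hk hA hδ hτ hU hi hf
  refine ⟨b, hb, fin_of hp hS hk hA hδ hτ hU (v := (run p k A i).1) hw ?_ (cont_br _) ?_ hl⟩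
  · rwa [br_one]
  · intro s hs
    exact ⟨(lnd_r hp hS h0k hk hA hδ hτ hf).mem s hs |>.1,
      cpt_Bxo (by linarith [hs.1, hs.2]) (by linarith [hs.1, hs.2]) _⟩

/-- At a free edge. -/
theorem lab_q {w z : ℂ} (hw : Ph ψ δ z = w) {i : ℕ} (hi : Fe n k i)
    (hj : JoinedIn (Dt S p k δ A τ ∩ Bxo (p (i : ZMod n))) z (qo (od p (i : ZMod n)))) :
    ∃ b, ww (gam p k δ S ψ A) ((τ : ℝ) + 1) ≤ b ∧ Lds p k δ S ψ A τ w b := by
  obtain ⟨b, hb, hl⟩ := free_land hp hS h0k hk hA hδ hτ hU hi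
  refine ⟨b, hb, fin_of hp hS hk hA hδ hτ hU (v := p (i : ZMod n)) hw ?_ (cont_bn _) ?_ hl⟩
  · rwa [bn_one]
  · intro s hs
    exact ⟨(lnd_f hp hS h0k hk hA hδ hτ hi).mem s hs |>.1,
      qp0_Bxo (by linarith [hs.1, hs.2]) (by linarith [hs.1, hs.2]) (od p (i : ZMod n))⟩

omit hk hA hτ hU hp hS h0k in
/-- Points at distance at least `1/4` of the closed domain. -/
theorem far1 {z : ℂ} (h : ∀ w ∈ region δ S, δ / 4 ≤ |((δ : ℂ) * z).re - w.re| ∨
    δ / 4 ≤ |((δ : ℂ) * z).im - w.im|) {f : ℤ × ℤ} (hf : f ∈ S) {x y : ℝ}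
    (h1 : (f.1 : ℝ) ≤ x) (h2 : x ≤ f.1 + 1) (h3 : (f.2 : ℝ) ≤ y) (h4 : y ≤ f.2 + 1) :
    1 / 4 ≤ |z.re - x| ∨ 1 / 4 ≤ |z.im - y| := by
  have e : ∀ a b : ℝ, |δ * a - δ * b| = δ * |a - b| := fun a b => by
    rw [← mul_sub, abs_mul, abs_of_pos hδ]
  have h5 := h ⟨δ * x, δ * y⟩ ⟨f, hf, mul_le_mul_of_nonneg_left h1 hδ.le,
    mul_le_mul_of_nonneg_left h2 hδ.le, mul_le_mul_of_nonneg_left h3 hδ.le,
    mul_le_mul_of_nonneg_left h4 hδ.le⟩
  simp only [Complex.re_ofReal_mul, Complex.im_ofReal_mul, e] at h5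
  rcases h5 with h5 | h5
  · left
    by_contra hc
    push Not at hc
    nlinarith [mul_lt_mul_of_pos_left hc hδ]
  · right
    by_contra hc
    push Not at hc
    nlinarith [mul_lt_mul_of_pos_left hc hδ]

include hk hA hτ hU hp hS h0k in
/-- The normal of a free edge, inside of the box. -/
theorem em_qo_B {i : ℕ} (hc : ahead (od p (i : ZMod n)) ∉ wiredOpen p k A) :
    JoinedIn (Dt S p k δ A τ ∩ Bxo (p (i : ZMod n))) (Fjord.em (od p (i : ZMod n)))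
      (qo (od p (i : ZMod n))) := by
  rw [em_qp, qo_qp]
  refine qp_joined hp hS h0k hk hA hδ hτ (by norm_num) fun t h1 h2 => ⟨?_, ?_⟩
  · exact sO hδ hτ (od_edge hp hS _) (fc_od hp hS _) (fun h => hc (er_F h (Or.inl ⟨rfl, rfl⟩))) h1
      (by linarith)
  · exact qp0_Bxo h1 (by linarith) (od p (i : ZMod n))

include hp hS hτ in
/-- In the diamond of a free edge, on the outside. -/
theorem rx_dia {z : ℂ} (hz : z ∈ Dt S p k δ A τ)
    (hfar : ∀ w ∈ region δ S, δ / 4 ≤ |((δ : ℂ) * z).re - w.re| ∨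
      δ / 4 ≤ |((δ : ℂ) * z).im - w.im|) {i : ZMod n}
    (hd : |z.re - (Fjord.em (od p i)).re| + |z.im - (Fjord.em (od p i)).im| ≤ 1 / 2) :
    JoinedIn (Dt S p k δ A τ ∩ Bxo (p i)) z (qo (od p i)) := by
  obtain ⟨u, t, rfl⟩ := qp_surj (od p i) z
  rw [qp_abs] at hd
  have hu0 := abs_nonneg u
  have ht0 := abs_nonneg t
  have hin : face (od p i).1 ((od p i).2 + 1) ∈ S := by
    have h2 := (mem_edges ((od p i).2 + 1)).1 (od_edge hp hS i)
    rw [fin4_2] at h2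
    rcases h2 with h | h
    · exact h
    · exact absurd h (fc_od hp hS i)
  have key : ∀ t' : ℝ, -1 ≤ t' → t' ≤ 0 → 1 / 4 ≤ |t - t'| := by
    intro t' h1 h2
    obtain ⟨⟨q1, q2⟩, q3, q4⟩ := qp_in (u := u) (by linarith) h1 h2 (od p i)
    obtain ⟨h3, h4⟩ := qp_sub (od p i) u t t'
    rcases far1 hδ hfar hin q1 q2 q3 q4 with h | h <;> linarith
  have ht1 : 0 ≤ t := by
    by_contra hc
    push Not at hc
    have := key t (by linarith [(abs_le.1 (show |t| ≤ 1 / 2 by linarith)).1]) hc.le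
    rw [sub_self, abs_zero] at this
    linarith
  have ht2 : 1 / 4 ≤ t := by
    have := key 0 (by norm_num) le_rfl
    rwa [sub_zero, abs_of_nonneg ht1] at this
  rw [abs_of_nonneg ht1] at hd
  have ht3 : t < 3 / 8 := by
    by_contra hc
    push Not at hc
    obtain ⟨⟨q1, q2⟩, q3, q4⟩ := qp_mid (u := u) (t := t) (by linarith) hc (by linarith) (od p i)
    obtain ⟨f, hf, h1, h2, h3, h4⟩ := hz.1
    have e1 : f.1 = (fc (od p i)).1 := by
      refine le_antisymm (Int.le_of_lt_add_one ?_) (Int.le_of_lt_add_one ?_)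
      · have : (f.1 : ℝ) < (fc (od p i)).1 + 1 := by linarith
        exact_mod_cast this
      · have : ((fc (od p i)).1 : ℝ) < f.1 + 1 := by linarith
        exact_mod_cast this
    have e2 : f.2 = (fc (od p i)).2 := by
      refine le_antisymm (Int.le_of_lt_add_one ?_) (Int.le_of_lt_add_one ?_)
      · have : (f.2 : ℝ) < (fc (od p i)).2 + 1 := by linarith
        exact_mod_cast this
      · have : ((fc (od p i)).2 : ℝ) < f.2 + 1 := by linarith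
        exact_mod_cast this
    exact fc_od hp hS i (by rw [← Prod.ext e1 e2]; exact hf)
  refine jin ?_ (qp_Bxo (by linarith) (by rw [abs_of_nonneg ht1]; linarith) (od p i)) ?_
  · intro x hx
    rw [qo_qp] at hx
    obtain ⟨s, h0, h1, rfl⟩ := seg_qp hx
    rcases h0.eq_or_lt with h0 | h0
    · rw [← h0, zero_mul, zero_mul, add_zero, add_zero]
      exact hz
    have e1 : u + s * (0 - u) = (1 - s) * u := by ring
    have hu1 : |(1 - s) * u| = (1 - s) * |u| := by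
      rw [abs_mul, abs_of_nonneg (by linarith : (0 : ℝ) ≤ 1 - s)]
    have hu2 : (1 - s) * |u| ≤ (1 - s) * (1 / 2 - t) :=
      mul_le_mul_of_nonneg_left (by linarith) (by linarith)
    have hu3 : (1 - s) * |u| ≤ (1 - s) * (1 / 4) :=
      mul_le_mul_of_nonneg_left (by linarith) (by linarith)
    have ht4 : (1 - s) * (1 / 4) ≤ (1 - s) * t :=
      mul_le_mul_of_nonneg_left ht2 (by linarith)
    have ht5 : (1 - s) * t ≤ (1 - s) * (3 / 8) :=
      mul_le_mul_of_nonneg_left ht3.le (by linarith)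
    have e2 : t + s * (5 / 16 - t) = (1 - s) * t + s * (5 / 16) := by ring
    rw [e1, e2]
    have b1 : 1 / 4 < (1 - s) * t + s * (5 / 16) := by nlinarith
    have b2 : (1 - s) * t + s * (5 / 16) < 3 / 8 := by nlinarith
    refine ins_Dt hδ hτ (EF_sub hin (qp_EF (by rw [hu1]; nlinarith) (by linarith) b2 _))
      (ins_qp (by rw [hu1]; nlinarith) (Or.inr ?_)) fun hb => ?_
    · rw [abs_of_nonneg (by linarith)]
      exact ⟨b1, by linarith⟩
    · have h5 := (bt_dz hb).1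
      have e3 := abs_of_nonneg (show (0 : ℝ) ≤ (1 - s) * t + s * (5 / 16) by linarith)
      rcases qp_dz (c := od p i) (u := (1 - s) * u) (t := (1 - s) * t + s * (5 / 16))
        (by rw [hu1]; nlinarith) (by rw [e3]; linarith) with ⟨h6, h7⟩ | ⟨h6, h7⟩ <;>
        rw [h6, h7, hu1, e3] at h5 <;> nlinarith
  · exact qo_Bxo (od p i)

include hk hA hτ hU hp hS h0k in
/-- Near a free vertex, on the outside. -/
theorem rx_vert {z : ℂ} (hz : z ∈ Dt S p k δ A τ)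
    (hfar : ∀ w ∈ region δ S, δ / 4 ≤ |((δ : ℂ) * z).re - w.re| ∨
      δ / 4 ≤ |((δ : ℂ) * z).im - w.im|) {i : ℕ} (hi : i < k)
    (h1 : |z.re - (p (i : ZMod n)).1| ≤ 3 / 8) (h2 : |z.im - (p (i : ZMod n)).2| ≤ 3 / 8) :
    JoinedIn (Dt S p k δ A τ ∩ Bxo (p (i : ZMod n))) z (qo (od p (i : ZMod n))) := by
  set v := p (i : ZMod n) with hv
  have hvS : v ∈ verts S := p_mem_verts hp hS _
  have hzB : z ∈ Bxo v := by
    rw [abs_le] at h1 h2
    exact ⟨⟨by linarith, by linarith⟩, by linarith, by linarith⟩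
  have h3 : 1 / 4 ≤ |z.re - v.1| ∨ 1 / 4 ≤ |z.im - v.2| := by
    obtain ⟨r, hr⟩ := mem_verts.1 hvS
    have hh := fun (f : ℤ × ℤ) (hf : f ∈ S) => far1 hδ (z := z) hfar hf (x := v.1) (y := v.2)
    have h4 := hh _ hr
    clear hh hr
    revert r
    refine forall4 ?_ ?_ ?_ ?_ <;> simp only [face0, face1, face2, face3] <;> push_cast <;>
      intro h4 <;> refine h4 ?_ ?_ ?_ ?_ <;> linarith
  obtain ⟨r, a, b, rfl, hb1, hb2, hab⟩ := vb_cases h1 h2 h3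
  have hbu : |b - 1 / 2| ≤ 1 / 2 := abs_le.2 ⟨by linarith, by linarith⟩
  have out : ∀ t' : ℝ, 0 ≤ t' → t' ≤ 1 → |a - t'| < 1 / 4 → face v r ∉ S := by
    intro t' h4 h5 h6 hf
    obtain ⟨⟨q1, q2⟩, q3, q4⟩ := qp_out (u := b - 1 / 2) hbu h4 h5 (v, r)
    obtain ⟨h7, h8⟩ := qp_sub (v, r) (b - 1 / 2) a t'
    rcases far1 hδ hfar hf q1 q2 q3 q4 with h | h <;> linarith
  have hrS : face v r ∉ S := by
    rcases hab with h | h
    · exact out 0 le_rfl (by norm_num) (by rwa [sub_zero])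
    · exact out a (by linarith) (by linarith) (by rw [sub_self, abs_zero]; norm_num)
  have j2 := (corner_out hp hS h0k hk hA hδ hτ hi _ r rfl hrS).mono
    (inter_subset_inter_left _ UR_sub)
  refine JoinedIn.trans ?_ j2
  have hcs : ∀ c : Medial, c.1 = v → c ≠ cs p := fun c hc => ne_cs hk hp hi.le (hc.trans hv)
  have hPB : cpt (5 / 16) (v, r) ∈ Bxo v := cpt_Bxo (by norm_num) (by norm_num) (v, r)
  have hPq : cpt (5 / 16) (v, r) = qp (v, r) (5 / 16 - 1 / 2) (5 / 16) := cpt_qp _ _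
  have mid : ∀ s : ℝ, 0 < s → s ≤ 1 → 1 / 4 < b + s * (5 / 16 - b) ∧
      b + s * (5 / 16 - b) < 3 / 8 := by
    intro s h4 h5
    have e : b + s * (5 / 16 - b) = (1 - s) * b + s * (5 / 16) := by ring
    rw [e]
    have h6 := mul_le_mul_of_nonneg_left hb1 (by linarith : (0 : ℝ) ≤ 1 - s)
    have h7 := mul_le_mul_of_nonneg_left hb2 (by linarith : (0 : ℝ) ≤ 1 - s)
    constructor <;> nlinarith
  rcases hab with ha | ⟨ha1, ha2⟩
  · -- the edge is not in the domain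
    have he : ahead (v, r) ∉ edges S := by
      intro he
      rcases (mem_edges (r + 1)).1 he with h | h
      · obtain ⟨⟨q1, q2⟩, q3, q4⟩ := qp_in (u := b - 1 / 2) (t := 0) hbu (by norm_num) le_rfl (v, r)
        obtain ⟨h7, h8⟩ := qp_sub (v, r) (b - 1 / 2) a 0
        rw [sub_zero] at h7 h8
        rcases far1 hδ hfar h q1 q2 q3 q4 with h | h <;> linarith
      · rw [fin4_2] at h
        exact hrS h
    have hc : ahead (v, r) ∉ wiredOpen p k A := fun h => he (wired_sub hp hS hA h)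
    have hQB : qp (v, r) (5 / 16 - 1 / 2) a ∈ Bxo v :=
      qp_Bxo (by rw [abs_lt]; constructor <;> norm_num) (by linarith) (v, r)
    have j1 : JoinedIn (Dt S p k δ A τ ∩ Bxo v) (qp (v, r) (b - 1 / 2) a)
        (qp (v, r) (5 / 16 - 1 / 2) a) := by
      refine jin (fun x hx => ?_) hzB hQB
      obtain ⟨s, h4, h5, rfl⟩ := seg_qp hx
      rcases h4.eq_or_lt with h4 | h4
      · rw [← h4, zero_mul, zero_mul, add_zero, add_zero]
        exact hz
      obtain ⟨m1, m2⟩ := mid s h4 h5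
      have e1 : b - 1 / 2 + s * (5 / 16 - 1 / 2 - (b - 1 / 2)) = (b + s * (5 / 16 - b)) - 1 / 2 := by
        ring
      rw [e1, sub_self, mul_zero, add_zero]
      set b' := b + s * (5 / 16 - b) with hb'
      have hub : |b' - 1 / 2| = 1 / 2 - b' := by rw [abs_of_nonpos (by linarith)]; ring
      obtain ⟨g1, g2⟩ := qp_vert (a := a) (b := b') v r (by linarith)
        (by rw [abs_of_pos (by linarith)]; exact m2)
      refine ins_Dt hδ hτ (box_O1 hvS g1 g2) (ins_qp (by rw [hub]; linarith) (Or.inl ha))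
        fun hb => ?_
      obtain ⟨h6, h7, h8⟩ := bt_dz hb
      rcases qp_dz (c := (v, r)) (u := b' - 1 / 2) (t := a) (by rw [hub]; linarith)
        (by linarith) with ⟨h9, h10⟩ | ⟨h9, h10⟩
      · rw [h6, h10] at h7
        linarith
      · rw [h10] at h7
        linarith
    refine j1.trans (jin (fun x hx => ?_) hQB hPB)
    refine sE hδ hτ (c := (v, r)) hvS hc (hcs _ rfl) (hcs _ rfl) ?_
    rw [hPq] at hx
    rw [hPq, cpt_rot_qp]
    obtain ⟨s, h4, h5, rfl⟩ := seg_qp hx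
    rw [sub_self, mul_zero, add_zero]
    have ha' := abs_lt.1 ha
    rw [segment_eq_image']
    refine ⟨(5 / 16 - (a + s * (5 / 16 - a))) * (8 / 5), ⟨?_, ?_⟩, ?_⟩
    · nlinarith
    · nlinarith
    · apply Complex.ext <;> simp only [qp, Complex.add_re, Complex.add_im, Complex.real_smul,
        Complex.re_ofReal_mul, Complex.im_ofReal_mul, Complex.sub_re, Complex.sub_im] <;> ring
  · refine jin (fun x hx => ?_) hzB hPB
    rw [hPq] at hx
    obtain ⟨s, h4, h5, rfl⟩ := seg_qp hx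
    rcases h4.eq_or_lt with h4 | h4
    · rw [← h4, zero_mul, zero_mul, add_zero, add_zero]
      exact hz
    obtain ⟨m1, m2⟩ := mid s h4 h5
    have e1 : b - 1 / 2 + s * (5 / 16 - 1 / 2 - (b - 1 / 2)) = (b + s * (5 / 16 - b)) - 1 / 2 := by
      ring
    rw [e1]
    set b' := b + s * (5 / 16 - b) with hb'
    have e2 : a + s * (5 / 16 - a) = (1 - s) * a + s * (5 / 16) := by ring
    have h6 := mul_le_mul_of_nonneg_left ha1 (by linarith : (0 : ℝ) ≤ 1 - s)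
    have h7 := mul_le_mul_of_nonneg_left ha2 (by linarith : (0 : ℝ) ≤ 1 - s)
    have m3 : 1 / 4 < a + s * (5 / 16 - a) := by rw [e2]; nlinarith
    have m4 : a + s * (5 / 16 - a) < 3 / 8 := by rw [e2]; nlinarith
    set a' := a + s * (5 / 16 - a) with ha'
    have hub : |b' - 1 / 2| = 1 / 2 - b' := by rw [abs_of_nonpos (by linarith)]; ring
    have haa : |a'| = a' := abs_of_pos (by linarith)
    obtain ⟨g1, g2⟩ := qp_vert (a := a') (b := b') v r (by rw [haa]; exact m4)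
      (by rw [abs_of_pos (by linarith)]; exact m2)
    refine ins_Dt hδ hτ (box_O1 hvS g1 g2) (ins_qp (by rw [hub]; linarith)
      (Or.inr (by rw [haa]; exact ⟨m3, by linarith⟩))) fun hb => ?_
    obtain ⟨θ, t1, t2, t3⟩ := bt_cpt hb
    rw [t3] at g1 g2
    obtain ⟨g3, g4⟩ := cpt_near (θ := θ) (by linarith) t2 (cs p)
    exact hcs (cs p) (vert_unique g1 g2 g3 g4) rfl

include hk hA hτ hU hp hS h0k in
/-- **Labels on the right.** -/
theorem lab_right {w : ℂ} (hw : w ∈ Hm p k δ S ψ A τ) (hR : ψ w ∈ RO p k S A δ τ) :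
    ∃ b, ww (gam p k δ S ψ A) ((τ : ℝ) + 1) ≤ b ∧ Lds p k δ S ψ A τ w b := by
  obtain ⟨z, hz, hzw, hPz⟩ := img_Dt hp hS hk hA hδ hτ hU hw
  rw [← hzw] at hR
  have hn : n ≠ 0 := by omega
  rcases hR with ⟨i, hi, hf, h⟩ | ⟨i, hi, he, hc, h⟩ | ⟨hfar, ⟨i, hi, h⟩ | ⟨i, hi, hwd, h⟩⟩
  · obtain ⟨h3, h4⟩ := (bx_iff hδ).1 h
    refine lab_f hp hS h0k hk hA hδ hτ hU hPz hi hf (jin (fun x hx => ?_) (fb_Bxo h3 h4) ?_)
    · exact cellF hδ hτ hp hS hf hz h3 h4 hx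
    · rw [← br_one]
      exact cpt_Bxo (by norm_num) (by norm_num) _
  · obtain ⟨h3, h4⟩ := (bx_iff hδ).1 h
    have e := em_co (run p k A i)
    rw [← e.1] at h3
    rw [← e.2] at h4
    have hB : Fjord.em (run p k A i) ∈ Bxo (run p k A i).1 := by
      rw [em_qp]; exact qp0_Bxo le_rfl (by norm_num) _
    have j1 : JoinedIn (Dt S p k δ A τ ∩ Bxo (run p k A i).1) z (Fjord.em (run p k A i)) :=
      jin (fun x hx => cellE hδ hτ he hz h3 h4 hx) (eb_Bxo h3 h4) hB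
    by_cases hf : fc (run p k A i) ∈ S
    · refine lab_f hp hS h0k hk hA hδ hτ hU hPz hi.le hf (j1.trans ?_)
      refine jin (fun x hx => sA hδ hτ hf hc hx) hB ?_
      rw [← br_one]
      exact cpt_Bxo (by norm_num) (by norm_num) _
    · obtain ⟨i', hi', h5⟩ := outer_free hp hS h0k hk hA hδ hτ he hf hc
      rw [h5] at j1 hc
      exact lab_q hp hS h0k hk hA hδ hτ hU hPz hi'
        (j1.trans (em_qo_B hp hS h0k hk hA hδ hτ hU hc))
  · obtain ⟨h3, h4⟩ := (bx_iff hδ).1 h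
    exact lab_q hp hS h0k hk hA hδ hτ hU hPz (Or.inl hi)
      (rx_vert hp hS h0k hk hA hδ hτ hU hz hfar hi h3 h4)
  · have hfe : Fe n k i := by
      by_contra hcon
      unfold Fe at hcon
      push Not at hcon
      exact hwd ⟨i, hcon.1, by omega, rfl⟩
    have e := em_co (od p (i : ZMod n))
    have e2 : (od p (i : ZMod n)).1 = p (i : ZMod n) := rfl
    have e3 : (od p (i : ZMod n)).1 + dir ((od p (i : ZMod n)).2 + 1) = p ((i : ZMod n) + 1) := by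
      have := adv_od hp (i : ZMod n)
      exact congrArg Prod.fst this
    rw [e3, e2] at e
    refine lab_q hp hS h0k hk hA hδ hτ hU hPz hfe (rx_dia hp hS h0k hk hA hδ hτ hU hz hfar ?_)
    have h' : |((δ : ℂ) * z).re - δ * (((p (i : ZMod n)).1 + (p ((i : ZMod n) + 1)).1) / 2)| +
      |((δ : ℂ) * z).im - δ * (((p (i : ZMod n)).2 + (p ((i : ZMod n) + 1)).2) / 2)| ≤ δ / 2 := h
    rw [← e.1, ← e.2, Complex.re_ofReal_mul, Complex.im_ofReal_mul, ← mul_sub, ← mul_sub, abs_mul,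
      abs_mul, abs_of_pos hδ, ← mul_add] at h'
    by_contra hcon
    push Not at hcon
    nlinarith [mul_lt_mul_of_pos_left hcon hδ]

end lab

end Vale.Agent.P167.H72
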