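import Vale.Agent.P153.R2.L2.RealBd
import Vale.Agent.P167.H72.Cross

/-!
# P167, block CG4 (LAB), part 2: landing of curves in the complement of a simple curve

* `land_exists`: the limit of `g_t` along a curve which lands at the boundary;
* `between`: limits at points of the curve are between the values of `g_t` at the real points on the
  two sides;
* `tip_lim`: the limit at the tip;
* `lab_L`, `lab_R`: the two sides.
-/

set_option autoImplicit false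
set_option linter.unusedVariables false

open Complex Metric Set Filter Topology
open scoped Real ComplexConjugate
open Vale.Agent.P153.R2.L1 Vale.Agent.P153.R2.L2

namespace Vale.Agent.P167.H72

variable {γ : ℝ → ℂ} {T : ℝ}

/-- the image is bounded near a point -/
theorem gg_bdd (h : Crv γ T) {t : ℝ} (ht : t ∈ Ico 0 T) (ζ : ℂ) :
    ∃ N : ℝ, 0 < N ∧ ∀ z ∈ (HH \ γ '' Icc 0 t) ∩ ball ζ 1, gg γ t z ∈ closedBall (0 : ℂ) N := by
  obtain ⟨R', hR'⟩ := (Metric.isBounded_iff_subset_closedBall (0 : ℂ)).mp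
    (h.hull_compact ht).isBounded
  set R := max R' 1 with hR
  have hR0 : 0 < R := lt_of_lt_of_le one_pos (le_max_right _ _)
  have hKR : γ '' Icc 0 t ⊆ closedBall ((0 : ℝ) : ℂ) R := by
    rw [ofReal_zero]
    exact hR'.trans (closedBall_subset_closedBall (le_max_left _ _))
  refine ⟨6 * R + ‖ζ‖ + 1, by positivity, ?_⟩
  rintro z ⟨hz1, hz2⟩
  have h1 := (h.hydro ht).norm_sub_le hR0 hKR hz1
  rw [mem_ball, dist_eq_norm] at hz2
  rw [mem_closedBall, dist_zero_right]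
  have h2 : ‖gg γ t z‖ ≤ ‖gg γ t z - z‖ + ‖z - ζ‖ + ‖ζ‖ := by
    calc ‖gg γ t z‖ = ‖(gg γ t z - z) + (z - ζ) + ζ‖ := by congr 1; ring
      _ ≤ _ := norm_add₃_le
  linarith

/-- small connected sets near a point have small images -/
theorem gg_small (h : Crv γ T) {t : ℝ} (ht : t ∈ Ico 0 T) (ζ : ℂ) {ε : ℝ} (hε : 0 < ε) :
    ∃ a : ℝ, 0 < a ∧ ∀ A : Set ℂ, IsPreconnected A → A ⊆ (HH \ γ '' Icc 0 t) ∩ ball ζ a →
      ∀ z ∈ A, ∀ z' ∈ A, ‖gg γ t z - gg γ t z'‖ ≤ ε := by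
  obtain ⟨N, hN0, hN⟩ := gg_bdd h ht ζ
  set L := 4 * π ^ 2 * N ^ 2 / ε ^ 2 with hL
  have hL0 : 0 < L := by positivity
  set a := Real.exp (-L) with ha
  have ha0 : 0 < a := Real.exp_pos _
  have ha1 : a < 1 := by rw [ha, Real.exp_lt_one_iff]; linarith
  refine ⟨a, ha0, fun A hA hAO z hz z' hz' => ?_⟩
  have h1 := (ConfH.of_hydro (h.hydro ht)).small_image_area ha0 ha1 hN hA hAO hz hz'
  have h2 : Real.log (1 / a) = L := by
    rw [one_div, Real.log_inv, ha, Real.log_exp, neg_neg]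
  rw [h2, hL] at h1
  have h3 : 4 * π ^ 2 * N ^ 2 / (4 * π ^ 2 * N ^ 2 / ε ^ 2) = ε ^ 2 := by
    field_simp
  rw [h3] at h1
  exact le_of_sq_le_sq h1 hε.le

/-- **The limit along a landing curve.** -/
theorem land_exists (h : Crv γ T) {t : ℝ} (ht : t ∈ Ico 0 T) {U : Set ℂ}
    (hU : U ⊆ HH \ γ '' Icc 0 t) {β : ℝ → ℂ} {ζ : ℂ} (hc : ContinuousOn β (Ioc 0 1))
    (hm : ∀ s ∈ Ioc (0 : ℝ) 1, β s ∈ U) (hl : Tendsto β (𝓝[>] 0) (𝓝 ζ))
    (hζ : ζ ∉ HH \ γ '' Icc 0 t) : ∃ a : ℝ, Land (gg γ t) U β a := by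
  have hconf := ConfH.of_hydro (h.hydro ht)
  have hcau : Cauchy (map (fun s => gg γ t (β s)) (𝓝[>] (0 : ℝ))) := by
    rw [Metric.cauchy_iff]
    refine ⟨inferInstance, fun ε hε => ?_⟩
    obtain ⟨a, ha, hsm⟩ := gg_small h ht ζ (half_pos hε)
    have h1 : ∀ᶠ s in 𝓝[>] (0 : ℝ), β s ∈ ball ζ a := hl (ball_mem_nhds _ ha)
    obtain ⟨c, hc0, hc'⟩ := (mem_nhdsGT_iff_exists_Ioc_subset).1 h1
    have hc1 : 0 < min c 1 := lt_min hc0 one_pos
    refine ⟨_, image_mem_map (Ioc_mem_nhdsGT hc1), ?_⟩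
    rintro _ ⟨s, hs, rfl⟩ _ ⟨s', hs', rfl⟩
    have h2 : IsPreconnected (β '' Ioc 0 (min c 1)) := isPreconnected_Ioc.image β
      (hc.mono (Ioc_subset_Ioc_right (min_le_right _ _)))
    have h3 : β '' Ioc 0 (min c 1) ⊆ (HH \ γ '' Icc 0 t) ∩ ball ζ a := by
      rintro _ ⟨x, hx, rfl⟩
      exact ⟨hU (hm x ⟨hx.1, hx.2.trans (min_le_right _ _)⟩),
        hc' ⟨hx.1, hx.2.trans (min_le_left _ _)⟩⟩
    rw [dist_eq_norm]
    exact (hsm _ h2 h3 _ ⟨s, hs, rfl⟩ _ ⟨s', hs', rfl⟩).trans_lt (half_lt_self hε)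
  obtain ⟨c, hcl⟩ := cauchy_iff_exists_le_nhds.1 hcau
  have hlim : Tendsto (fun s => gg γ t (β s)) (𝓝[>] 0) (𝓝 c) := hcl
  have hmem : ∀ᶠ s in 𝓝[>] (0 : ℝ), s ∈ Ioc (0 : ℝ) 1 := Ioc_mem_nhdsGT one_pos
  have him : 0 ≤ c.im := by
    refine ge_of_tendsto ((continuous_im.tendsto c).comp hlim) ?_
    filter_upwards [hmem] with s hs
    exact (hconf.maps _ (hU (hm s hs))).le
  have h0 : c.im = 0 := by
    by_contra hne
    have hpos : 0 < c.im := lt_of_le_of_ne him (Ne.symm hne)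
    have hcH : c ∈ HH := hpos
    have h1 : Tendsto (fun s => inv (γ '' Icc 0 t) (gg γ t) (gg γ t (β s))) (𝓝[>] 0)
        (𝓝 (inv (γ '' Icc 0 t) (gg γ t) c)) := by
      have h2 := hconf.cont c hcH
      refine h2.tendsto.comp (tendsto_nhdsWithin_iff.2 ⟨hlim, ?_⟩)
      filter_upwards [hmem] with s hs
      exact hconf.maps _ (hU (hm s hs))
    have h2 : Tendsto β (𝓝[>] 0) (𝓝 (inv (γ '' Icc 0 t) (gg γ t) c)) := by
      refine h1.congr' ?_
      filter_upwards [hmem] with s hs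
      exact hconf.left _ (hU (hm s hs))
    have h3 := tendsto_nhds_unique hl h2
    rw [h3] at hζ
    exact hζ (hconf.inv_mem c hcH)
  refine ⟨c.re, hc, hm, ?_⟩
  have : ((c.re : ℝ) : ℂ) = c := Complex.ext (by simp) (by simp [h0])
  rw [this]
  exact hlim

/-- **Boundary values on the real line**, compared with the limits along curves which land at the
curve `γ`. -/
theorem between (h : Crv γ T) {t : ℝ} (ht : t ∈ Ico 0 T) {x : ℝ} (hx : x ≠ (γ 0).re) :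
    ∃ y : ℝ, Tendsto (gg γ t) (𝓝[HH \ γ '' Icc 0 t] (x : ℂ)) (𝓝 (y : ℂ)) ∧
      ∀ (β : ℝ → ℂ) (a : ℝ) (ζ : ℂ), Land (gg γ t) (HH \ γ '' Icc 0 t) β a → ζ ∈ γ '' Icc 0 t →
        Tendsto β (𝓝[>] 0) (𝓝 ζ) → 0 < (x - (γ 0).re) * (y - a) := by
  have hyd := h.hydro ht
  have hcpt := h.hull_compact ht
  set K := γ '' Icc 0 t with hK
  set Ω : Set ℂ := {z | z ∉ K ∧ conj z ∉ K} with hΩ
  have hΩo : IsOpen Ω := by
    have h1 : IsOpen Kᶜ := hcpt.isClosed.isOpen_compl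
    exact h1.inter (h1.preimage Complex.continuous_conj)
  have hsym : ∀ z ∈ Ω, conj z ∈ Ω := by
    rintro z ⟨h1, h2⟩
    exact ⟨h2, by rwa [Complex.conj_conj]⟩
  have hup : ∀ z : ℂ, 0 < z.im → (z ∈ Ω ↔ z ∈ HH \ K) := by
    intro z hz
    constructor
    · rintro ⟨h1, -⟩
      exact ⟨hz, h1⟩
    · rintro ⟨-, h1⟩
      refine ⟨h1, fun hc => ?_⟩
      have := h.hull_im ht hc
      rw [conj_im] at this
      linarith
  obtain ⟨G, hGd, hGg, hGs⟩ := reflect (F := gg γ t) (C := 1) one_pos hΩo hsym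
    (hyd.diff.mono (by
      rintro z ⟨h1, h2⟩
      exact (hup z h2).1 h1))
    (fun z hz h0 => by
      have hz' := (hup z h0).1 hz
      have h1 : 0 < (gg γ t z).im := hyd.mapsTo hz'
      rw [abs_of_pos h1, one_mul]
      exact hyd.im_le hz')
  have hreal : ∀ y : ℝ, (y : ℂ) ∈ Ω → (G y).im = 0 := by
    intro y hy
    have h1 := hGs y hy
    rw [conj_ofReal] at h1
    have h2 := congrArg Complex.im h1
    rw [conj_im] at h2
    linarith
  have hmemΩ : ∀ y : ℝ, y ≠ (γ 0).re → (y : ℂ) ∈ Ω := by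
    intro y hy
    refine ⟨fun hc => hy (h.real_mem ht hc), fun hc => hy (h.real_mem ht ?_)⟩
    rwa [conj_ofReal] at hc
  have hcont : ContinuousOn G Ω := hGd.continuousOn
  -- the limit
  have hlim : ∀ y : ℝ, (y : ℂ) ∈ Ω → Tendsto (gg γ t) (𝓝[HH \ K] (y : ℂ)) (𝓝 (G y)) := by
    intro y hy
    have h1 : Tendsto G (𝓝[HH \ K] (y : ℂ)) (𝓝 (G y)) :=
      ((hcont y hy).continuousAt (hΩo.mem_nhds hy)).mono_left nhdsWithin_le_nhds
    refine h1.congr' ?_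
    filter_upwards [self_mem_nhdsWithin] with z hz
    exact hGg z ((hup z hz.1).2 hz) hz.1
  have hne : ∀ y : ℝ, (y : ℂ) ∈ Ω → (𝓝[HH \ K] (y : ℂ)).NeBot := by
    intro y hy
    rw [← mem_closure_iff_nhdsWithin_neBot, mem_closure_iff_nhds]
    intro U hU
    have h1 : U ∩ Ω ∈ 𝓝 (y : ℂ) := inter_mem hU (hΩo.mem_nhds hy)
    have h2 : Tendsto (fun s : ℝ => (y : ℂ) + s * I) (𝓝[>] 0) (𝓝 (y : ℂ)) := by
      have : Continuous fun s : ℝ => (y : ℂ) + s * I := by fun_prop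
      have h3 := this.tendsto 0
      simp only [ofReal_zero, zero_mul, add_zero] at h3
      exact h3.mono_left nhdsWithin_le_nhds
    obtain ⟨s, hs1, hs2⟩ := ((h2.eventually h1).and self_mem_nhdsWithin).exists
    have hs0 : 0 < ((y : ℂ) + s * I).im := by
      simpa using hs2
    exact ⟨_, hs1.1, (hup _ hs0).1 hs1.2⟩
  -- a limit at the curve is not a boundary value
  have hnot : ∀ (β : ℝ → ℂ) (a : ℝ) (ζ : ℂ), Land (gg γ t) (HH \ K) β a → ζ ∈ K →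
      Tendsto β (𝓝[>] 0) (𝓝 ζ) → ∀ y : ℝ, (y : ℂ) ∈ Ω → (G y).re ≠ a := by
    intro β a ζ hβ hζ hβζ y hy hc
    have hGy : G y = (a : ℂ) := Complex.ext (by simpa using hc) (by simpa using hreal y hy)
    have hA : AnalyticAt ℂ G y := hGd.analyticAt (hΩo.mem_nhds hy)
    rcases hA.eventually_constant_or_nhds_le_map_nhds with h1 | h1
    · have h2 : ∀ᶠ z in 𝓝[HH \ K] (y : ℂ), G z = G y := h1.filter_mono nhdsWithin_le_nhds
      have := hne y hy
      obtain ⟨z, hz1, hz2⟩ := (h2.and self_mem_nhdsWithin).exists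
      have h3 : 0 < (gg γ t z).im := hyd.mapsTo hz2
      rw [← hGg z ((hup z hz2.1).2 hz2) hz2.1, hz1, hreal y hy] at h3
      exact lt_irrefl _ h3
    · obtain ⟨r, hr, hball⟩ := Metric.nhds_basis_closedBall.mem_iff.1 (hΩo.mem_nhds hy)
      have h2 : G '' ball (y : ℂ) r ∈ 𝓝 (a : ℂ) := by
        rw [← hGy]
        exact h1 (image_mem_map (ball_mem_nhds _ hr))
      have h3 := hβ.lim.eventually h2
      have hmem : ∀ᶠ s in 𝓝[>] (0 : ℝ), s ∈ Ioc (0 : ℝ) 1 := Ioc_mem_nhdsGT one_pos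
      have h4 : ∀ᶠ u in 𝓝[>] (0 : ℝ), β u ∈ ball (y : ℂ) r := by
        filter_upwards [h3, hmem] with u hu hu'
        obtain ⟨z, hz, hzu⟩ := hu
        have hm := hβ.mem u hu'
        have hpos : 0 < (gg γ t (β u)).im := hyd.mapsTo hm
        have hzΩ : z ∈ Ω := hball (ball_subset_closedBall hz)
        have hz0 : 0 < z.im := by
          by_contra hcon
          push Not at hcon
          rcases hcon.lt_or_eq with h5 | h5
          · have h6 : 0 < (conj z).im := by rw [conj_im]; linarith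
            have h7 := hsym z hzΩ
            have h8 : 0 < (gg γ t (conj z)).im := hyd.mapsTo ((hup _ h6).1 h7)
            rw [← hGg _ h7 h6, hGs z hzΩ, conj_im, hzu] at h8
            linarith
          · have h6 : z = (z.re : ℂ) := Complex.ext (by simp) (by simp [h5])
            have h7 := hreal z.re (by rw [← h6]; exact hzΩ)
            rw [← h6, hzu] at h7
            linarith
        have h5 := (hup z hz0).1 hzΩ
        rw [hGg z hzΩ hz0] at hzu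
        rw [← hyd.inj h5 hm hzu]
        exact hz
      have h6 : ζ ∈ closedBall (y : ℂ) r :=
        isClosed_closedBall.mem_of_tendsto hβζ (h4.mono fun u hu => ball_subset_closedBall hu)
      exact (hball h6).1 hζ
  -- growth
  obtain ⟨R', hR'⟩ := (Metric.isBounded_iff_subset_closedBall (0 : ℂ)).mp hcpt.isBounded
  set R := max R' 1 with hR
  have hR0 : 0 < R := lt_of_lt_of_le one_pos (le_max_right _ _)
  have hKR : K ⊆ closedBall ((0 : ℝ) : ℂ) R := by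
    rw [ofReal_zero]
    exact hR'.trans (closedBall_subset_closedBall (le_max_left _ _))
  have hgrow : ∀ y : ℝ, (y : ℂ) ∈ Ω → |(G y).re - y| ≤ 6 * R := by
    intro y hy
    have := hne y hy
    have h1 : ‖G y - y‖ ≤ 6 * R := by
      have h2 : Tendsto (fun z => ‖gg γ t z - z‖) (𝓝[HH \ K] (y : ℂ)) (𝓝 ‖G y - y‖) :=
        ((hlim y hy).sub (tendsto_id.mono_left nhdsWithin_le_nhds)).norm
      refine le_of_tendsto h2 ?_
      filter_upwards [self_mem_nhdsWithin] with z hz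
      exact hyd.norm_sub_le hR0 hKR hz
    have h2 := Complex.abs_re_le_norm (G y - y)
    rw [sub_re, ofReal_re] at h2
    exact h2.trans h1
  have hcr : ContinuousOn (fun y : ℝ => (G y).re) {y | y ≠ (γ 0).re} := by
    refine Complex.continuous_re.comp_continuousOn (hcont.comp ?_ ?_)
    · exact Complex.continuous_ofReal.continuousOn
    · exact fun y hy => hmemΩ y hy
  refine ⟨(G x).re, ?_, fun β a ζ hβ hζ hβζ => ?_⟩
  · have h1 := hlim x (hmemΩ x hx)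
    have h2 : ((G x).re : ℂ) = G x :=
      Complex.ext (by simp) (by simpa using (hreal x (hmemΩ x hx)).symm)
    rwa [h2]
  · rcases lt_or_gt_of_ne hx with hx' | hx'
    · refine mul_pos_of_neg_of_neg (by linarith) ?_
      by_contra hcon
      push Not at hcon
      set X := min x (a - 6 * R - 1) with hX
      have hXx : X ≤ x := min_le_left _ _
      have hsub : Icc X x ⊆ {y | y ≠ (γ 0).re} := fun y hy => (hy.2.trans_lt hx').ne
      have h1 := intermediate_value_Icc hXx (hcr.mono hsub)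
      have h2 : (G X).re ≤ a := by
        have h3 := hgrow X (hmemΩ X (hsub ⟨le_rfl, hXx⟩))
        have h4 := (abs_le.1 h3).2
        have h5 : X ≤ a - 6 * R - 1 := min_le_right _ _
        linarith
      obtain ⟨y, hy, hyw⟩ := h1 ⟨h2, by linarith⟩
      exact hnot β a ζ hβ hζ hβζ y (hmemΩ y (hsub hy)) hyw
    · refine mul_pos (by linarith) ?_
      by_contra hcon
      push Not at hcon
      set X := max x (a + 6 * R + 1) with hX
      have hXx : x ≤ X := le_max_left _ _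
      have hsub : Icc x X ⊆ {y | y ≠ (γ 0).re} := fun y hy => (hx'.trans_le hy.1).ne'
      have h1 := intermediate_value_Icc hXx (hcr.mono hsub)
      have h2 : a ≤ (G X).re := by
        have h3 := hgrow X (hmemΩ X (hsub ⟨hXx, le_rfl⟩))
        have h4 := (abs_le.1 h3).1
        have h5 : a + 6 * R + 1 ≤ X := le_max_right _ _
        linarith
      obtain ⟨y, hy, hyw⟩ := h1 ⟨by linarith, h2⟩
      exact hnot β a ζ hβ hζ hβζ y (hmemΩ y (hsub hy)) hyw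

/-- Near the tip the complement of the curve is connected. -/
theorem tip_conn (h : Crv γ T) {t : ℝ} (ht : t ∈ Ioo 0 T) {ε : ℝ} (hε : 0 < ε) :
    ∃ ρ : ℝ, 0 < ρ ∧ ρ ≤ ε ∧ ∀ z ∈ (HH \ γ '' Icc 0 t) ∩ ball (γ t) ρ,
      ∀ z' ∈ (HH \ γ '' Icc 0 t) ∩ ball (γ t) ρ,
        JoinedIn ((HH \ γ '' Icc 0 t) ∩ ball (γ t) ε) z z' := by
  wlog hεi : ε ≤ (γ t).im generalizing ε
  · obtain ⟨ρ, h1, h2, h3⟩ := this (h.im_pos t ht) le_rfl
    push Not at hεi
    refine ⟨ρ, h1, h2.trans hεi.le, fun z hz z' hz' => (h3 z hz z' hz').mono ?_⟩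
    exact inter_subset_inter_right _ (ball_subset_ball hεi.le)
  have hsub : Icc 0 t ⊆ Ico 0 T := fun s hs => ⟨hs.1, hs.2.trans_lt ht.2⟩
  have hc : ContinuousOn γ (Icc 0 t) := h.cont.mono hsub
  have hi : InjOn γ (Icc 0 t) := h.inj.mono hsub
  -- the last time outside of the ball
  set Z : Set ℝ := {s | s ∈ Icc 0 t ∧ ε ≤ dist (γ s) (γ t)} with hZ
  have hZc : IsCompact Z := by
    have h1 : IsClosed Z := by
      have : ContinuousOn (fun s => dist (γ s) (γ t)) (Icc 0 t) :=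
        continuous_dist.comp_continuousOn (hc.prodMk continuousOn_const)
      exact this.preimage_isClosed_of_isClosed isClosed_Icc isClosed_Ici
    exact isCompact_Icc.of_isClosed_subset h1 fun s hs => hs.1
  have hZ0 : (0 : ℝ) ∈ Z := by
    refine ⟨⟨le_rfl, ht.1.le⟩, ?_⟩
    rw [dist_comm, dist_eq_norm]
    refine le_trans ?_ (Complex.abs_im_le_norm _)
    rw [sub_im, h.start, sub_zero]
    exact hεi.trans (le_abs_self _)
  obtain ⟨s₁, hs₁, hmax⟩ := hZc.exists_isMaxOn ⟨0, hZ0⟩ continuousOn_id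
  have hs₁t : s₁ < t := by
    refine lt_of_le_of_ne hs₁.1.2 fun he => ?_
    have := hs₁.2
    rw [he, dist_self] at this
    linarith
  have hlast : ∀ s, s₁ < s → s ≤ t → dist (γ s) (γ t) < ε := by
    intro s h1 h2
    by_contra hcon
    push Not at hcon
    have : s ≤ s₁ := hmax ⟨⟨hs₁.1.1.trans h1.le, h2⟩, hcon⟩
    linarith
  set A : Set ℂ := γ '' Icc s₁ t with hA
  set B : Set ℂ := (ball (γ t) ε)ᶜ ∪ γ '' Icc 0 s₁ with hB
  have hsA : Icc s₁ t ⊆ Icc 0 t := Icc_subset_Icc_left hs₁.1.1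
  have hsB : Icc 0 s₁ ⊆ Icc 0 t := Icc_subset_Icc_right hs₁.1.2
  have hAc : IsCompact A := isCompact_Icc.image_of_continuousOn (hc.mono hsA)
  have hB1 : IsCompact (γ '' Icc 0 s₁) := isCompact_Icc.image_of_continuousOn (hc.mono hsB)
  have hBc : IsClosed B := isOpen_ball.isClosed_compl.union hB1.isClosed
  have hAB : IsPreconnected (A ∩ B) := by
    refine Set.Subsingleton.isPreconnected ?_
    have key : ∀ z ∈ A ∩ B, z = γ s₁ := by
      rintro z ⟨⟨s, hs, rfl⟩, hz⟩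
      have hseq : s = s₁ := by
        rcases hz with hz | ⟨s', hs', he⟩
        · by_contra hne
          exact hz (hlast s (lt_of_le_of_ne hs.1 (Ne.symm hne)) hs.2)
        · have := hi (hsB hs') (hsA hs) he
          have h1 := hs'.2
          have h2 := hs.1
          linarith
      rw [hseq]
    intro z hz z' hz'
    rw [key z hz, key z' hz']
  -- the radius
  have htB : γ t ∉ B := by
    rintro (h1 | ⟨s', hs', he⟩)
    · exact h1 (mem_ball_self hε)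
    · have := hi (hsB hs') ⟨ht.1.le, le_rfl⟩ he
      have h1 := hs'.2
      linarith
  obtain ⟨ρ, hρ, hρB⟩ := Metric.isOpen_iff.1 hBc.isOpen_compl _ htB
  refine ⟨min ρ ε, lt_min hρ hε, min_le_right _ _, ?_⟩
  rintro z ⟨hz, hzb⟩ z' ⟨hz', hzb'⟩
  have j1 : JoinedIn Aᶜ z z' := by
    have h1 := P153.TOP.isPathConnected_compl_arc (hc.mono hsA) (hi.mono hsA)
    refine h1.joinedIn _ ?_ _ ?_
    · rintro ⟨s, hs, he⟩
      exact hz.2 ⟨s, hsA hs, he⟩
    · rintro ⟨s, hs, he⟩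
      exact hz'.2 ⟨s, hsA hs, he⟩
  have j2 : JoinedIn Bᶜ z z' := by
    refine JoinedIn.of_segment_subset fun x hx => hρB ?_
    refine ball_subset_ball (min_le_left _ _) ((convex_ball _ _).segment_subset hzb hzb' hx)
  have j3 := P153.TOP.janiszewski_closed hAc hBc hAB j1 j2
  refine j3.mono fun x hx => ?_
  rw [mem_compl_iff, mem_union, not_or] at hx
  have hxb : x ∈ ball (γ t) ε := by
    by_contra hcon
    exact hx.2 (Or.inl hcon)
  refine ⟨⟨?_, ?_⟩, hxb⟩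
  · have h1 := Complex.abs_im_le_norm (x - γ t)
    rw [mem_ball, dist_eq_norm] at hxb
    rw [sub_im] at h1
    have h2 := (abs_lt.1 (h1.trans_lt hxb)).1
    show 0 < x.im
    linarith
  · rintro ⟨s, hs, he⟩
    rcases le_total s s₁ with h1 | h1
    · exact hx.2 (Or.inr ⟨s, ⟨hs.1, h1⟩, he⟩)
    · exact hx.1 ⟨s, ⟨h1, hs.2⟩, he⟩

/-- **The limit at the tip.** -/
theorem tip_lim (h : Crv γ T) {t : ℝ} (ht : t ∈ Ioo 0 T) :
    Tendsto (gg γ t) (𝓝[HH \ γ '' Icc 0 t] (γ t)) (𝓝 (ww γ t : ℂ)) := by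
  have ht' : t ∈ Ico 0 T := ⟨ht.1.le, ht.2⟩
  rw [Metric.tendsto_nhds]
  intro ε hε
  obtain ⟨a, ha, hsm⟩ := gg_small h ht' (γ t) (half_pos hε)
  obtain ⟨ρ, hρ, -, hj⟩ := tip_conn h ht ha
  have h1 : ∀ᶠ u in 𝓝[>] t, dist (gg γ t (γ u)) (ww γ t) < ε / 2 :=
    Metric.tendsto_nhds.1 (h.tip ht') _ (half_pos hε)
  have h2 : ∀ᶠ u in 𝓝[>] t, γ u ∈ (HH \ γ '' Icc 0 t) ∩ ball (γ t) ρ := by
    have h3 := h.tendsto_right ht'
    rw [tendsto_nhdsWithin_iff] at h3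
    filter_upwards [h3.2, h3.1 (ball_mem_nhds _ hρ)] with u hu1 hu2
    exact ⟨hu1, hu2⟩
  obtain ⟨u, hu1, hu2⟩ := (h1.and h2).exists
  have h3 : ∀ᶠ z in 𝓝[HH \ γ '' Icc 0 t] (γ t), z ∈ ball (γ t) ρ :=
    mem_nhdsWithin_of_mem_nhds (ball_mem_nhds _ hρ)
  filter_upwards [h3, self_mem_nhdsWithin] with z hz1 hz2
  obtain ⟨P, hP⟩ := hj z ⟨hz2, hz1⟩ _ hu2
  have h4 := hsm (range P) (isPreconnected_range P.continuous) (by
    rintro _ ⟨s, rfl⟩
    exact hP s) z ⟨0, P.source⟩ (γ u) ⟨1, P.target⟩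
  calc dist (gg γ t z) (ww γ t) ≤ dist (gg γ t z) (gg γ t (γ u)) + dist (gg γ t (γ u)) (ww γ t) :=
        dist_triangle _ _ _
    _ < ε / 2 + ε / 2 := by
        rw [dist_eq_norm (gg γ t z)]
        exact add_lt_add_of_le_of_lt h4 hu1
    _ = ε := add_halves ε

/-! ### The two sides -/

/-- `β` is a half-open curve in `U` which lands at `ζ`. -/
structure Lnd (U : Set ℂ) (β : ℝ → ℂ) (ζ : ℂ) : Prop where
  cont : ContinuousOn β (Ioc 0 1)
  mem : ∀ s ∈ Ioc (0 : ℝ) 1, β s ∈ U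
  lim : Tendsto β (𝓝[>] 0) (𝓝 ζ)

theorem Lnd.mono {U U' : Set ℂ} {β : ℝ → ℂ} {ζ : ℂ} (h : Lnd U β ζ) (hU : U ⊆ U') : Lnd U' β ζ :=
  ⟨h.cont, fun s hs => hU (h.mem s hs), h.lim⟩

theorem Lnd.within {U : Set ℂ} {β : ℝ → ℂ} {ζ : ℂ} (h : Lnd U β ζ) :
    Tendsto β (𝓝[>] 0) (𝓝[U] ζ) := by
  refine tendsto_nhdsWithin_iff.2 ⟨h.lim, ?_⟩
  filter_upwards [Ioc_mem_nhdsGT one_pos] with s hs
  exact h.mem s hs

theorem Lnd.land {t : ℝ} {U : Set ℂ} {β : ℝ → ℂ} {ζ : ℂ} (h : Crv γ T) (ht : t ∈ Ico 0 T)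
    (hU : U ⊆ HH \ γ '' Icc 0 t) (hβ : Lnd U β ζ) (hζ : ζ ∉ HH \ γ '' Icc 0 t) :
    ∃ a : ℝ, Land (gg γ t) U β a := land_exists h ht hU hβ.cont hβ.mem hβ.lim hζ

/-- Landing at the tip. -/
theorem lab_tip {t : ℝ} (h : Crv γ T) (ht : t ∈ Ioo 0 T) {U : Set ℂ}
    (hU : U ⊆ HH \ γ '' Icc 0 t) {β : ℝ → ℂ} (hβ : Lnd U β (γ t)) :
    Land (gg γ t) U β (ww γ t) :=
  ⟨hβ.cont, hβ.mem, (tip_lim h ht).comp (hβ.mono hU).within⟩

/-- Landing at a real point. -/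
theorem lab_real {t : ℝ} (h : Crv γ T) (ht : t ∈ Ico 0 T) {U : Set ℂ}
    (hU : U ⊆ HH \ γ '' Icc 0 t) {β : ℝ → ℂ} {x : ℝ} (hx : x ≠ (γ 0).re) (hβ : Lnd U β x) :
    ∃ y : ℝ, Land (gg γ t) U β y ∧ 0 < (x - (γ 0).re) * (y - ww γ t) ∧
      ∀ (β : ℝ → ℂ) (a : ℝ) (ζ : ℂ), Land (gg γ t) (HH \ γ '' Icc 0 t) β a → ζ ∈ γ '' Icc 0 t →
        Tendsto β (𝓝[>] 0) (𝓝 ζ) → 0 < (x - (γ 0).re) * (y - a) := by
  obtain ⟨y, h1, h2⟩ := between h ht hx
  obtain ⟨y', h3, h4⟩ := h.real_bd ht hx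
  have hβ' := (hβ.mono hU).within
  have h5 := h1.comp hβ'
  have h6 := h3.comp hβ'
  have h7 : y = y' := by
    have := tendsto_nhds_unique h5 h6
    exact_mod_cast this
  subst h7
  exact ⟨y, ⟨hβ.cont, hβ.mem, h5⟩, h4, h2⟩

section

variable {t : ℝ} {U V : Set ℂ} {β₀ β β' β₁ : ℝ → ℂ} {x₀ x₁ : ℝ} {ζ : ℂ}

/-- **Left landings.** The set `U` lands at `x₀ < γ 0` and at the point `ζ` of the curve; the set
`V`, disjoint from `U`, lands at the tip and at `x₁ > γ 0`. Then the limit at `ζ` is at most the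
driver. -/
theorem lab_L (h : Crv γ T) (ht : t ∈ Ioo 0 T) (hU : U ⊆ HH \ γ '' Icc 0 t)
    (hV : V ⊆ HH \ γ '' Icc 0 t) (hd : Disjoint U V) (hx₀ : x₀ < (γ 0).re) (hx₁ : (γ 0).re < x₁)
    (l₀ : Lnd U β₀ x₀) (l : Lnd U β ζ) (hζ : ζ ∈ γ '' Icc 0 t) (hj : JoinedIn U (β₀ 1) (β 1))
    (l' : Lnd V β' (γ t)) (l₁ : Lnd V β₁ x₁) (hj' : JoinedIn V (β' 1) (β₁ 1)) :
    ∃ a : ℝ, a ≤ ww γ t ∧ Land (gg γ t) U β a := by
  have ht' : t ∈ Ico 0 T := ⟨ht.1.le, ht.2⟩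
  have hyd := h.hydro ht'
  obtain ⟨a, ha⟩ := l.land h ht' hU fun hc => hc.2 hζ
  refine ⟨a, ?_, ha⟩
  by_contra hcon
  push Not at hcon
  obtain ⟨y₀, m1, m2, m3⟩ := lab_real h ht' hU hx₀.ne l₀
  obtain ⟨y₁, n1, n2, n3⟩ := lab_real h ht' hV hx₁.ne' l₁
  have m4 := m3 β a ζ (ha.mono hU) hζ l.lim
  have n4 := n3 β a ζ (ha.mono hU) hζ l.lim
  refine crosscut (G := gg γ t) (O := HH \ γ '' Icc 0 t) hyd.diff.continuousOn
    (fun x hx y hy e => hyd.inj hx hy e) (fun z hz => hyd.mapsTo hz) hU hV hd m1 ha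
    (lab_tip h ht hV l') n1 hj hj' (y₀ := y₀) ?_ hcon ?_
  · nlinarith
  · nlinarith

/-- **Right landings.** -/
theorem lab_R (h : Crv γ T) (ht : t ∈ Ioo 0 T) (hU : U ⊆ HH \ γ '' Icc 0 t)
    (hV : V ⊆ HH \ γ '' Icc 0 t) (hd : Disjoint U V) (hx₀ : x₀ < (γ 0).re) (hx₁ : (γ 0).re < x₁)
    (l₀ : Lnd U β₀ x₀) (l' : Lnd U β' (γ t)) (hj : JoinedIn U (β₀ 1) (β' 1))
    (l : Lnd V β ζ) (hζ : ζ ∈ γ '' Icc 0 t) (l₁ : Lnd V β₁ x₁) (hj' : JoinedIn V (β 1) (β₁ 1)) :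
    ∃ b : ℝ, ww γ t ≤ b ∧ Land (gg γ t) V β b := by
  have ht' : t ∈ Ico 0 T := ⟨ht.1.le, ht.2⟩
  have hyd := h.hydro ht'
  obtain ⟨b, hb⟩ := l.land h ht' hV fun hc => hc.2 hζ
  refine ⟨b, ?_, hb⟩
  by_contra hcon
  push Not at hcon
  obtain ⟨y₀, m1, m2, m3⟩ := lab_real h ht' hU hx₀.ne l₀
  obtain ⟨y₁, n1, n2, n3⟩ := lab_real h ht' hV hx₁.ne' l₁
  have m4 := m3 β b ζ (hb.mono hV) hζ l.lim
  refine crosscut (G := gg γ t) (O := HH \ γ '' Icc 0 t) hyd.diff.continuousOn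
    (fun x hx y hy e => hyd.inj hx hy e) (fun z hz => hyd.mapsTo hz) hU hV hd m1
    (lab_tip h ht hU l') hb n1 hj hj' (y₀ := y₀) ?_ hcon ?_
  · nlinarith
  · nlinarith

end

/-- A real limit is in the closure of the image. -/
theorem Land.mem_closure {G : ℂ → ℂ} {U : Set ℂ} {β : ℝ → ℂ} {a : ℝ} (h : Land G U β a) :
    (a : ℂ) ∈ closure (G '' (β '' Ioc 0 1)) := by
  refine mem_closure_of_tendsto h.lim ?_
  filter_upwards [Ioc_mem_nhdsGT one_pos] with s hs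
  exact ⟨_, ⟨s, hs, rfl⟩, rfl⟩

end Vale.Agent.P167.H72
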