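import Vale.Agent.P167.H72.Chain
import Vale.Agent.P167.H72.Land
import Vale.Agent.P167.H327.Ori
import Vale.Agent.P167.H411.Corner

/-!
# P167, block CG4 (LAB), part 6: transfer to the half-plane

`Ph ψ δ z` is the point of the half-plane which corresponds to the point `δ z` of `Om δ S`.
`left_land`, `right_land`: the limits of `g_t` at the corners of the path, from the left and from the
right.
-/

set_option linter.unusedSimpArgs false
set_option linter.unusedVariables false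
set_option linter.unusedSectionVars false

open Set Metric Filter Topology

namespace Vale.Agent.P167.H72

open Vale.Agent.P167.E6 Vale.Agent.P167.E2 Vale.Agent.P167.Fjord
open Vale.Agent.P167.H327 (tA tB tA_bd tB_bd QF ph ph_eq ph_mem ph_cont ph_img uni_of good_Om6 pos_HC
  real_HC)
open Vale.Agent.P167.H411 (Qc Qc_wf mem_Qc DC)
open Vale.Agent.P153.R2.R1 (IsU NoCut)
open Vale.Agent.P153.R2.DET (Uni HC)
open Vale.Agent.P153.R2.L1 (HH)
open Vale.Agent.P153.R2.L2 (Crv gg ww)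

variable {n : ℕ} {p : ZMod n → ℤ × ℤ} {S : Finset (ℤ × ℤ)} {k : ℕ} {A : Finset (Sym2 (ℤ × ℤ))}

/-! ### Landing curves, mesh `1` -/

theorem cont_cpt (c : Medial) : Continuous fun θ : ℝ => cpt θ c := by
  have : (fun θ : ℝ => cpt θ c) = fun θ : ℝ => pt c.1 + (θ : ℂ) * (cpt 1 c - pt c.1) := by
    funext θ
    apply Complex.ext
    · simp only [Complex.add_re, Complex.re_ofReal_mul, Complex.sub_re, cpt_re, E2.pt_re]; ring
    · simp only [Complex.add_im, Complex.im_ofReal_mul, Complex.sub_im, cpt_im, E2.pt_im]; ring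
  rw [this]
  fun_prop

theorem cont_qp (c : Medial) (u : ℝ) : Continuous fun t : ℝ => qp c u t := by
  have : (fun t : ℝ => qp c u t) = fun t : ℝ => qp c u 0 + (t : ℂ) * (qp c u 1 - qp c u 0) := by
    funext t
    apply Complex.ext
    · simp only [Complex.add_re, Complex.re_ofReal_mul, Complex.sub_re, qp]; ring
    · simp only [Complex.add_im, Complex.im_ofReal_mul, Complex.sub_im, qp]; ring
  rw [this]
  fun_prop

theorem lnd_of {U : Set ℂ} {f : ℝ → ℂ} {ζ : ℂ} (hf : Continuous f) (h0 : f 0 = ζ)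
    (h : ∀ s ∈ Ioc (0 : ℝ) 1, f s ∈ U) : Lnd U f ζ :=
  ⟨hf.continuousOn, h, h0 ▸ (hf.tendsto 0).mono_left nhdsWithin_le_nhds⟩

/-- Along the normal of a polygon edge. -/
noncomputable def bn (c : Medial) (s : ℝ) : ℂ := qp c 0 (3 / 8 - s / 16)
/-- In the cell of the vertex. -/
noncomputable def bl (c : Medial) (s : ℝ) : ℂ := cpt (1 / 4 - s / 4) c
/-- In the cell of the face. -/
noncomputable def br (c : Medial) (s : ℝ) : ℂ := cpt (1 / 4 + s / 4) c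
/-- Outside. -/
noncomputable def bo (c : Medial) (s : ℝ) : ℂ := cpt (1 / 4 + s / 16) c

theorem bn_one (c : Medial) : bn c 1 = qo c := by rw [qo_qp, bn]; norm_num
theorem bl_one (c : Medial) : bl c 1 = pt c.1 := by
  apply Complex.ext
  · rw [bl, cpt_re]; norm_num
  · rw [bl, cpt_im]; norm_num
theorem br_one (c : Medial) : br c 1 = ctr (fc c) := by
  rw [ctr_qp, br, cpt_qp]; norm_num
theorem bo_one (c : Medial) : bo c 1 = cpt (5 / 16) c := by rw [bo]; norm_num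

theorem cont_bn (c : Medial) : Continuous (bn c) :=
  (cont_qp c 0).comp (by fun_prop : Continuous fun s : ℝ => (3 / 8 - s / 16 : ℝ))
theorem cont_bl (c : Medial) : Continuous (bl c) :=
  (cont_cpt c).comp (by fun_prop : Continuous fun s : ℝ => (1 / 4 - s / 4 : ℝ))
theorem cont_br (c : Medial) : Continuous (br c) :=
  (cont_cpt c).comp (by fun_prop : Continuous fun s : ℝ => (1 / 4 + s / 4 : ℝ))
theorem cont_bo (c : Medial) : Continuous (bo c) :=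
  (cont_cpt c).comp (by fun_prop : Continuous fun s : ℝ => (1 / 4 + s / 16 : ℝ))

section lnd

variable (hp : IsPolygon p) (hS : Encloses p S) (h0k : 0 < k) (hk : k + 1 < n)
  (hA : A ⊆ edges S) {δ : ℝ} (hδ : 0 < δ) {τ : ℕ} (hτ : τ ≤ len p k A)
include hp hS h0k hk hA hδ hτ

theorem lnd_w {i : ℕ} (h1 : k ≤ i) (h2 : i + 1 < n) :
    Lnd (UL S p k δ A τ) (bn (od p (i : ZMod n))) (qp (od p (i : ZMod n)) 0 (3 / 8)) :=
  lnd_of (cont_bn _) (by rw [bn]; norm_num) fun s hs =>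
    lw hp hS h0k hk hA hδ hτ h1 h2 (by linarith [hs.1, hs.2]) (by linarith [hs.1, hs.2])

theorem lnd_f {i : ℕ} (hi : Fe n k i) :
    Lnd (UR S p k δ A τ) (bn (od p (i : ZMod n))) (qp (od p (i : ZMod n)) 0 (3 / 8)) :=
  lnd_of (cont_bn _) (by rw [bn]; norm_num) fun s hs =>
    lq hp hS h0k hk hA hδ hτ hi (by linarith [hs.1, hs.2]) (by linarith [hs.1, hs.2])

theorem lnd_l {c : Medial} (hc : c.1 ∈ verts S) : Lnd (UL S p k δ A τ) (bl c) (cpt (1 / 4) c) :=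
  lnd_of (cont_bl _) (by rw [bl]; norm_num) fun s hs =>
    ⟨sF hδ hτ hc (by linarith [hs.1, hs.2]) (by linarith [hs.1, hs.2]),
      Or.inr (Or.inl ⟨c, _, by linarith [hs.1, hs.2], by linarith [hs.1, hs.2], rfl⟩)⟩

theorem lnd_r {c : Medial} (hc : fc c ∈ S) : Lnd (UR S p k δ A τ) (br c) (cpt (1 / 4) c) :=
  lnd_of (cont_br _) (by rw [br]; norm_num) fun s hs =>
    ⟨sD' hδ hτ hp hS hc (by linarith [hs.1, hs.2]) (by linarith [hs.1, hs.2]),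
      Or.inr (Or.inl ⟨c, _, by linarith [hs.1, hs.2], by linarith [hs.1, hs.2], rfl⟩)⟩

theorem lnd_o {c : Medial} (hc : c.1 ∈ verts S) (h1 : c ≠ cs p) :
    Lnd (UR S p k δ A τ) (bo c) (cpt (1 / 4) c) :=
  lnd_of (cont_bo _) (by rw [bo]; norm_num) fun s hs =>
    ⟨sT hδ hτ hc h1 (by linarith [hs.1, hs.2]) (by linarith [hs.1, hs.2]),
      Or.inr (Or.inl ⟨c, _, by linarith [hs.1, hs.2], by linarith [hs.1, hs.2], rfl⟩)⟩

end lnd

/-! ### Points of the frontier -/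

theorem QF_half (hp : IsPolygon p) (hS : Encloses p S) (δ : ℝ) (i : ℤ) :
    QF p δ (i + 1 / 2) = (δ : ℂ) * qp (od p (i : ZMod n)) 0 (3 / 8) := by
  rw [QF, H327.qF_near hp i (by norm_num) le_rfl,
    (H327.loc_out (ri_ne_ro hp hS) (by norm_num)).1, (H327.loc_out (ri_ne_ro hp hS) (by norm_num)).2]
  congr 1
  unfold od
  generalize H327.kp (ro p (i : ZMod n) - ri p (i : ZMod n)) = κ
  generalize ro p (i : ZMod n) = r
  revert r
  refine forall4 ?_ ?_ ?_ ?_ <;> apply Complex.ext <;>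
    simp only [H327.nr, qp, Fjord.em, adv_0, adv_1, adv_2, adv_3, f4_0m, f4_1m, f4_2m,
      f4_3m, H327.ex0, H327.ex1, H327.ex2, H327.ex3, H327.ey0, H327.ey1, H327.ey2, H327.ey3,
      dir0, dir1, dir2, dir3, f4_01, f4_11, f4_21, f4_31] <;> push_cast <;> ring

section fr

variable (hp : IsPolygon p) (hS : Encloses p S) (h0k : 0 < k) (hk : k + 1 < n)
  {δ : ℝ} (hδ : 0 < δ) {ψ : ℂ → ℂ} (hU : IsU ψ (Om δ S) (aM p δ) (bM p k δ))
include hp hS h0k hk hδ hU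

theorem fr_w {i : ℕ} (h1 : k ≤ i) (h2 : i + 1 < n) :
    ∃ x : ℝ, x < 0 ∧ ψ x = (δ : ℂ) * qp (od p (i : ZMod n)) 0 (3 / 8) := by
  have ha := tA_bd (p := p)
  have hb := tB_bd (p := p) k
  have h3 : (k : ℝ) ≤ i := by exact_mod_cast h1
  have h4 : (i : ℝ) + 1 + 1 ≤ n := by exact_mod_cast h2
  have h5 := QF_half hp hS δ (i : ℤ)
  push_cast at h5
  rw [← h5]
  exact H327.ori_wired' hδ hp hS h0k hk hU ⟨by linarith, by linarith⟩

theorem fr_f {i : ℕ} (hi : Fe n k i) :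
    ∃ x : ℝ, 0 < x ∧ ψ x = (δ : ℂ) * qp (od p (i : ZMod n)) 0 (3 / 8) := by
  have ha := tA_bd (p := p)
  have hb := tB_bd (p := p) k
  have hk1 : (1 : ℝ) ≤ k := by exact_mod_cast h0k
  rcases hi with hi | hi
  · have h3 : (i : ℝ) + 1 ≤ k := by exact_mod_cast hi
    have h4 : (0 : ℝ) ≤ i := Nat.cast_nonneg _
    have h5 := QF_half hp hS δ (i : ℤ)
    push_cast at h5
    rw [← h5]
    exact H327.ori_free' hδ hp hS h0k hk hU ⟨by linarith, by linarith⟩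
  · have h5 := QF_half hp hS δ (-1 : ℤ)
    have h6 : ((-1 : ℤ) : ZMod n) = (i : ZMod n) := by
      have h7 : ((i + 1 : ℕ) : ZMod n) = 0 := by rw [hi]; exact ZMod.natCast_self n
      push_cast at h7 ⊢
      exact (eq_neg_of_add_eq_zero_left h7).symm
    rw [h6] at h5
    rw [← h5]
    refine H327.ori_free' hδ hp hS h0k hk hU ⟨?_, ?_⟩ <;> push_cast <;> linarith

end fr

/-! ### Transfer -/

/-- The point of the half-plane which corresponds to `δ z`. -/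
noncomputable def Ph (ψ : ℂ → ℂ) (δ : ℝ) (z : ℂ) : ℂ := ph ψ ((δ : ℂ) * z)

/-- The curve in the half-plane. -/
noncomputable def gam (p : ZMod n → ℤ × ℤ) (k : ℕ) (δ : ℝ) (S : Finset (ℤ × ℤ)) (ψ : ℂ → ℂ)
    (A : Finset (Sym2 (ℤ × ℤ))) : ℝ → ℂ := (Qc p k δ S).et ψ A

/-- The half-plane minus the curve. -/
def Hm (p : ZMod n → ℤ × ℤ) (k : ℕ) (δ : ℝ) (S : Finset (ℤ × ℤ)) (ψ : ℂ → ℂ)
    (A : Finset (Sym2 (ℤ × ℤ))) (τ : ℕ) : Set ℂ := HH \ gam p k δ S ψ A '' Icc 0 ((τ : ℝ) + 1)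

section tra

variable (hp : IsPolygon p) (hS : Encloses p S) (h0k : 0 < k) (hk : k + 1 < n)
  (hA : A ⊆ edges S) {δ : ℝ} (hδ : 0 < δ) {τ : ℕ} (hτ : τ ≤ len p k A)
  {ψ : ℂ → ℂ} (hU : IsU ψ (Om δ S) (aM p δ) (bM p k δ))

include hp hS hδ hU in
theorem uni6 : Uni ψ (bM p k δ) := uni_of hU (good_Om6 hδ hp hS).nocut

include hp hS hk hA hδ hU

theorem crv6 : Crv (gam p k δ S ψ A) (nu p k A) :=
  (Qc_wf hp hS hk hδ hU).crv (uni6 hp hS hδ hU) (mem_Qc.2 hA)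

theorem psi_gam {t : ℝ} (h0 : 0 ≤ t) (ht : t < nu p k A) :
    ψ (gam p k δ S ψ A t) = pl p k δ A t :=
  (Qc_wf hp hS hk hδ hU).psi_et (mem_Qc.2 hA) h0 ht

theorem gam_mem {t : ℝ} (h0 : 0 ≤ t) (ht : t < nu p k A) : gam p k δ S ψ A t ∈ HC :=
  (Qc_wf hp hS hk hδ hU).et_mem (mem_Qc.2 hA) h0 ht

theorem gam_zero : gam p k δ S ψ A 0 = 0 :=
  (Qc_wf hp hS hk hδ hU).et_zero (uni6 hp hS hδ hU) (mem_Qc.2 hA)

include hτ

omit hp hS hk hA hδ hU in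
theorem tau_lt : ((τ : ℝ) + 1) ∈ Ioo (0 : ℝ) (nu p k A) := by
  refine ⟨by positivity, ?_⟩
  have : (τ : ℝ) ≤ len p k A := by exact_mod_cast hτ
  have e : ((nu p k A : ℕ) : ℝ) = len p k A + 2 := by unfold nu; push_cast; rfl
  rw [e]
  linarith

/-- Points of the domain minus the path. -/
theorem ph_Dt {z : ℂ} (hz : z ∈ Dt S p k δ A τ) :
    Ph ψ δ z ∈ Hm p k δ S ψ A τ ∧ ψ (Ph ψ δ z) = (δ : ℂ) * z := by
  have h1 := ph_mem hU (good_Om6 hδ hp hS).nocut ((mem_Om hδ).2 hz.1)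
  refine ⟨⟨h1.1, ?_⟩, h1.2⟩
  rintro ⟨s, hs, he⟩
  refine hz.2 ⟨s, hs, ?_⟩
  have ht := tau_lt (p := p) (k := k) (A := A) hτ
  rw [← psi_gam hp hS hk hA hδ hU hs.1 (hs.2.trans_lt ht.2), he]
  exact h1.2

theorem ph_inj {z z' : ℂ} (hz : z ∈ Dt S p k δ A τ) (hz' : z' ∈ Dt S p k δ A τ)
    (h : Ph ψ δ z = Ph ψ δ z') : z = z' := by
  have h1 := (ph_Dt hp hS hk hA hδ hτ hU hz).2
  rw [h, (ph_Dt hp hS hk hA hδ hτ hU hz').2] at h1
  exact (mul_left_cancel₀ (by exact_mod_cast hδ.ne') h1).symm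

/-- All points of the half-plane minus the curve. -/
theorem img_Dt {w : ℂ} (hw : w ∈ Hm p k δ S ψ A τ) :
    ∃ z ∈ Dt S p k δ A τ, (δ : ℂ) * z = ψ w ∧ Ph ψ δ z = w := by
  have h0 : (δ : ℂ) ≠ 0 := by exact_mod_cast hδ.ne'
  have h1 : (δ : ℂ) * (ψ w / δ) = ψ w := mul_div_cancel₀ _ h0
  refine ⟨ψ w / δ, ⟨?_, ?_⟩, h1, ?_⟩
  · rw [← mem_Om hδ, h1, ← hU.img]
    exact ⟨w, hw.1, rfl⟩
  · rintro ⟨s, hs, he⟩
    rw [h1] at he
    refine hw.2 ⟨s, hs, ?_⟩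
    have ht := tau_lt (p := p) (k := k) (A := A) hτ
    have h2 := psi_gam hp hS hk hA hδ hU hs.1 (hs.2.trans_lt ht.2)
    exact (uni6 hp hS hδ hU).inj (gam_mem hp hS hk hA hδ hU hs.1 (hs.2.trans_lt ht.2))
      (pos_HC hw.1) (h2.trans he)
  · rw [Ph, h1]
    exact ph_eq (uni6 hp hS hδ hU) (pos_HC hw.1)

theorem ph_cont' : ContinuousOn (Ph ψ δ) (Dt S p k δ A τ) := by
  refine (ph_cont (uni6 hp hS hδ hU)).comp (by fun_prop) fun z hz => ?_
  have h1 := ph_mem hU (good_Om6 hδ hp hS).nocut ((mem_Om hδ).2 hz.1)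
  exact ⟨_, pos_HC h1.1, h1.2⟩

/-- Landing curves. -/
theorem Lnd.tra {U : Set ℂ} (hUD : U ⊆ Dt S p k δ A τ) {β : ℝ → ℂ} {ζ w : ℂ} (h : Lnd U β ζ)
    (hw : w ∈ HC) (hwζ : ψ w = (δ : ℂ) * ζ) :
    Lnd (Ph ψ δ '' U) (fun s => Ph ψ δ (β s)) w where
  cont := (ph_cont' hp hS hk hA hδ hτ hU).comp h.cont fun s hs => hUD (h.mem s hs)
  mem := fun s hs => ⟨_, h.mem s hs, rfl⟩
  lim := by
    have h1 : ContinuousWithinAt (ph ψ) (ψ '' HC) ((δ : ℂ) * ζ) := by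
      rw [← hwζ]
      exact ph_cont (uni6 hp hS hδ hU) _ ⟨w, hw, rfl⟩
    have h2 : Tendsto (fun s => (δ : ℂ) * β s) (𝓝[>] 0) (𝓝[ψ '' HC] ((δ : ℂ) * ζ)) := by
      refine tendsto_nhdsWithin_iff.2 ⟨tendsto_const_nhds.mul h.lim, ?_⟩
      filter_upwards [Ioc_mem_nhdsGT one_pos] with s hs
      have h3 := ph_mem hU (good_Om6 hδ hp hS).nocut ((mem_Om hδ).2 (hUD (h.mem s hs)).1)
      exact ⟨_, pos_HC h3.1, h3.2⟩
    have h4 := h1.tendsto.comp h2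
    rw [← hwζ, ph_eq (uni6 hp hS hδ hU) hw] at h4
    exact h4

theorem joined_tra {U : Set ℂ} (hUD : U ⊆ Dt S p k δ A τ) {a b : ℂ} (h : JoinedIn U a b) :
    JoinedIn (Ph ψ δ '' U) (Ph ψ δ a) (Ph ψ δ b) :=
  h.map_continuousOn ((ph_cont' hp hS hk hA hδ hτ hU).mono hUD)

theorem sub_Hm {U : Set ℂ} (hUD : U ⊆ Dt S p k δ A τ) : Ph ψ δ '' U ⊆ Hm p k δ S ψ A τ := by
  rintro _ ⟨z, hz, rfl⟩
  exact (ph_Dt hp hS hk hA hδ hτ hU (hUD hz)).1

theorem disj_tra : Disjoint (Ph ψ δ '' UL S p k δ A τ) (Ph ψ δ '' UR S p k δ A τ) := by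
  rw [disjoint_left]
  rintro _ ⟨z, hz, rfl⟩ ⟨z', hz', he⟩
  have h1 := ph_inj hp hS hk hA hδ hτ hU hz'.1 hz.1 he
  rw [h1] at hz'
  exact (disjoint_left.1 UL_UR) hz hz'

omit hp hS hk hA hδ hτ hU in
theorem UL_sub {δ : ℝ} {τ : ℕ} : UL S p k δ A τ ⊆ Dt S p k δ A τ := fun _ h => h.1
omit hp hS hk hA hδ hτ hU in
theorem UR_sub {δ : ℝ} {τ : ℕ} : UR S p k δ A τ ⊆ Dt S p k δ A τ := fun _ h => h.1

/-- The corner of the path. -/
theorem psi_corner {i : ℕ} (hi : i ≤ τ) :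
    ψ (gam p k δ S ψ A ((i : ℝ) + 1)) = (δ : ℂ) * cpt (1 / 4) (run p k A i) := by
  have ht := tau_lt (p := p) (k := k) (A := A) (hi.trans hτ)
  rw [psi_gam hp hS hk hA hδ hU ht.1.le ht.2]
  unfold pl
  have e : ((i : ℝ) + 1) = ((i + 1 : ℕ) : ℝ) := by push_cast; rfl
  rw [e, lin_nat, xv_mid (hi.trans hτ)]

/-! ### The limits at the corners of the path -/

include h0k

/-- The data on the left: the landing at a wired edge. -/
theorem left_end : ∃ x : ℝ, x < 0 ∧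
    Lnd (Ph ψ δ '' UL S p k δ A τ) (fun s => Ph ψ δ (bn (od p ((n - 2 : ℕ) : ZMod n)) s)) x := by
  obtain ⟨x, h1, h2⟩ := fr_w hp hS h0k hk hδ hU (i := n - 2) (by omega) (by omega)
  exact ⟨x, h1, (lnd_w hp hS h0k hk hA hδ hτ (by omega) (by omega)).tra hp hS hk hA hδ hτ hU UL_sub
    (real_HC x) h2⟩

/-- Landing at a corner of the path. -/
theorem corner_HC {i : ℕ} (hi : i ≤ τ) : gam p k δ S ψ A ((i : ℝ) + 1) ∈ HC := by
  have ht := tau_lt (p := p) (k := k) (A := A) (hi.trans hτ)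
  exact gam_mem hp hS hk hA hδ hU ht.1.le ht.2

/-- **The tip on the right.** -/
theorem tip_right (h1 : 1 ≤ τ) : ∃ (β' β₁ : ℝ → ℂ) (x₁ : ℝ), 0 < x₁ ∧
    Lnd (Ph ψ δ '' UR S p k δ A τ) β' (gam p k δ S ψ A ((τ : ℝ) + 1)) ∧
    Lnd (Ph ψ δ '' UR S p k δ A τ) β₁ x₁ ∧ JoinedIn (Ph ψ δ '' UR S p k δ A τ) (β' 1) (β₁ 1) := by
  have hcor := psi_corner hp hS hk hA hδ hτ hU le_rfl
  have hHC := corner_HC hp hS h0k hk hA hδ hτ hU le_rfl
  by_cases hf : fc (run p k A τ) ∈ S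
  · obtain ⟨i, hi, hj⟩ := right_chain hp hS h0k hk hA hδ hτ τ le_rfl hf
    obtain ⟨x, hx, hx2⟩ := fr_f hp hS h0k hk hδ hU hi
    have l1 := (lnd_f hp hS h0k hk hA hδ hτ hi).tra hp hS hk hA hδ hτ hU UR_sub (real_HC x) hx2
    have l2 := (lnd_r hp hS h0k hk hA hδ hτ hf).tra hp hS hk hA hδ hτ hU UR_sub hHC hcor
    refine ⟨_, _, x, hx, l2, l1, ?_⟩
    have := joined_tra hp hS hk hA hδ hτ hU UR_sub hj
    rw [← br_one, ← bn_one] at this
    exact this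
  · obtain ⟨i, hi, hj⟩ := tip_out hp hS h0k hk hA hδ hτ h1 hf
    obtain ⟨x, hx, hx2⟩ := fr_f hp hS h0k hk hδ hU hi
    have hne : run p k A τ ≠ cs p := by
      intro he
      rw [← run_zero (p := p) (k := k) (A := A)] at he
      have := run_inj' hp hS hk hA τ hτ 0 (by omega) he
      omega
    have l1 := (lnd_f hp hS h0k hk hA hδ hτ hi).tra hp hS hk hA hδ hτ hU UR_sub (real_HC x) hx2
    have l2 := (lnd_o hp hS h0k hk hA hδ hτ (run_mem hp hS hA τ) hne).tra hp hS hk hA hδ hτ hU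
      UR_sub hHC hcor
    refine ⟨_, _, x, hx, l2, l1, ?_⟩
    have := joined_tra hp hS hk hA hδ hτ hU UR_sub hj
    rw [← bo_one, ← bn_one] at this
    exact this

/-- **Left landings.** -/
theorem left_land {i : ℕ} (hi : i ≤ τ) : ∃ a : ℝ, a ≤ ww (gam p k δ S ψ A) ((τ : ℝ) + 1) ∧
    Land (gg (gam p k δ S ψ A) ((τ : ℝ) + 1)) (Ph ψ δ '' UL S p k δ A τ)
      (fun s => Ph ψ δ (bl (run p k A i) s)) a := by
  have hC := crv6 hp hS hk hA hδ hU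
  have ht := tau_lt (p := p) (k := k) (A := A) hτ
  have hUL := sub_Hm hp hS hk hA hδ hτ hU (UL_sub (S := S) (p := p) (k := k) (A := A) (δ := δ)
    (τ := τ))
  have hUR := sub_Hm hp hS hk hA hδ hτ hU (UR_sub (S := S) (p := p) (k := k) (A := A) (δ := δ)
    (τ := τ))
  have l := (lnd_l hp hS h0k hk hA hδ hτ (run_mem hp hS hA i)).tra hp hS hk hA hδ hτ hU UL_sub
    (corner_HC hp hS h0k hk hA hδ hτ hU hi) (psi_corner hp hS hk hA hδ hτ hU hi)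
  rcases hi.lt_or_eq with hi' | rfl
  · obtain ⟨x₀, hx₀, l₀⟩ := left_end hp hS h0k hk hA hδ hτ hU
    obtain ⟨β', β₁, x₁, hx₁, l', l₁, hj'⟩ := tip_right hp hS h0k hk hA hδ hτ hU (by omega)
    have h0 : (gam p k δ S ψ A 0).re = 0 := by rw [gam_zero hp hS hk hA hδ hU, Complex.zero_re]
    have hj := joined_tra hp hS hk hA hδ hτ hU UL_sub (left_chain hp hS h0k hk hA hδ hτ i hi).symm
    rw [← bn_one, ← bl_one] at hj
    exact lab_L hC ht hUL hUR (disj_tra hp hS hk hA hδ hτ hU) (by rwa [h0]) (by rwa [h0]) l₀ l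
      ⟨_, ⟨by positivity, by
        have : (i : ℝ) ≤ τ := by exact_mod_cast hi
        linarith⟩, rfl⟩ hj l' l₁ hj'
  · exact ⟨_, le_rfl, lab_tip hC ht hUL l⟩

/-- **Right landings.** -/
theorem right_land {i : ℕ} (hi : i ≤ τ) (hf : fc (run p k A i) ∈ S) :
    ∃ b : ℝ, ww (gam p k δ S ψ A) ((τ : ℝ) + 1) ≤ b ∧
    Land (gg (gam p k δ S ψ A) ((τ : ℝ) + 1)) (Ph ψ δ '' UR S p k δ A τ)
      (fun s => Ph ψ δ (br (run p k A i) s)) b := by
  have hC := crv6 hp hS hk hA hδ hU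
  have ht := tau_lt (p := p) (k := k) (A := A) hτ
  have hUL := sub_Hm hp hS hk hA hδ hτ hU (UL_sub (S := S) (p := p) (k := k) (A := A) (δ := δ)
    (τ := τ))
  have hUR := sub_Hm hp hS hk hA hδ hτ hU (UR_sub (S := S) (p := p) (k := k) (A := A) (δ := δ)
    (τ := τ))
  have l := (lnd_r hp hS h0k hk hA hδ hτ hf).tra hp hS hk hA hδ hτ hU UR_sub
    (corner_HC hp hS h0k hk hA hδ hτ hU hi) (psi_corner hp hS hk hA hδ hτ hU hi)
  obtain ⟨x₀, hx₀, l₀⟩ := left_end hp hS h0k hk hA hδ hτ hU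
  have l' := (lnd_l hp hS h0k hk hA hδ hτ (run_mem hp hS hA τ)).tra hp hS hk hA hδ hτ hU UL_sub
    (corner_HC hp hS h0k hk hA hδ hτ hU le_rfl) (psi_corner hp hS hk hA hδ hτ hU le_rfl)
  have hj := joined_tra hp hS hk hA hδ hτ hU UL_sub (left_chain hp hS h0k hk hA hδ hτ τ le_rfl).symm
  rw [← bn_one, ← bl_one] at hj
  obtain ⟨i', hi', hj'⟩ := right_chain hp hS h0k hk hA hδ hτ i hi hf
  obtain ⟨x₁, hx₁, hx2⟩ := fr_f hp hS h0k hk hδ hU hi'
  have l₁ := (lnd_f hp hS h0k hk hA hδ hτ hi').tra hp hS hk hA hδ hτ hU UR_sub (real_HC x₁) hx2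
  have hj2 := joined_tra hp hS hk hA hδ hτ hU UR_sub hj'
  rw [← br_one, ← bn_one] at hj2
  have h0 : (gam p k δ S ψ A 0).re = 0 := by rw [gam_zero hp hS hk hA hδ hU, Complex.zero_re]
  exact lab_R hC ht hUL hUR (disj_tra hp hS hk hA hδ hτ hU) (by rwa [h0]) (by rwa [h0]) l₀ l' hj l
    ⟨_, ⟨by positivity, by
      have : (i : ℝ) ≤ τ := by exact_mod_cast hi
      linarith⟩, rfl⟩ l₁ hj2

/-- **Landings at the wired edges.** -/
theorem wired_land {i : ℕ} (h1 : k ≤ i) (h2 : i + 1 < n) :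
    ∃ a : ℝ, a ≤ ww (gam p k δ S ψ A) ((τ : ℝ) + 1) ∧
    Land (gg (gam p k δ S ψ A) ((τ : ℝ) + 1)) (Ph ψ δ '' UL S p k δ A τ)
      (fun s => Ph ψ δ (bn (od p (i : ZMod n)) s)) a := by
  have hC := crv6 hp hS hk hA hδ hU
  have ht := tau_lt (p := p) (k := k) (A := A) hτ
  have hUL := sub_Hm hp hS hk hA hδ hτ hU (UL_sub (S := S) (p := p) (k := k) (A := A) (δ := δ)
    (τ := τ))
  have h0 : (gam p k δ S ψ A 0).re = 0 := by rw [gam_zero hp hS hk hA hδ hU, Complex.zero_re]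
  obtain ⟨x, hx, hx2⟩ := fr_w hp hS h0k hk hδ hU h1 h2
  have l := (lnd_w hp hS h0k hk hA hδ hτ h1 h2).tra hp hS hk hA hδ hτ hU UL_sub (real_HC x) hx2
  obtain ⟨y, h3, h4, -⟩ := lab_real hC ⟨ht.1.le, ht.2⟩ hUL (by rw [h0]; exact hx.ne) l
  refine ⟨y, ?_, h3⟩
  rw [h0] at h4
  nlinarith

/-- **Landings at the free edges.** -/
theorem free_land {i : ℕ} (hi : Fe n k i) :
    ∃ b : ℝ, ww (gam p k δ S ψ A) ((τ : ℝ) + 1) ≤ b ∧
    Land (gg (gam p k δ S ψ A) ((τ : ℝ) + 1)) (Ph ψ δ '' UR S p k δ A τ)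
      (fun s => Ph ψ δ (bn (od p (i : ZMod n)) s)) b := by
  have hC := crv6 hp hS hk hA hδ hU
  have ht := tau_lt (p := p) (k := k) (A := A) hτ
  have hUR := sub_Hm hp hS hk hA hδ hτ hU (UR_sub (S := S) (p := p) (k := k) (A := A) (δ := δ)
    (τ := τ))
  have h0 : (gam p k δ S ψ A 0).re = 0 := by rw [gam_zero hp hS hk hA hδ hU, Complex.zero_re]
  obtain ⟨x, hx, hx2⟩ := fr_f hp hS h0k hk hδ hU hi
  have l := (lnd_f hp hS h0k hk hA hδ hτ hi).tra hp hS hk hA hδ hτ hU UR_sub (real_HC x) hx2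
  obtain ⟨y, h3, h4, -⟩ := lab_real hC ⟨ht.1.le, ht.2⟩ hUR (by rw [h0]; exact hx.ne') l
  refine ⟨y, ?_, h3⟩
  rw [h0] at h4
  nlinarith

end tra

end Vale.Agent.P167.H72
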